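import Vale.Agent.P182.H533.Conn

/-!
# Glued blocks: the even and the odd part of a flow

`X` is the index set of the family `t : X → V` (in the application `X = J × Bool`, with
`t (l, 0) = t l` and `t (l, 1) = om t l`), `C x` is the flag at `x`, `RR` the space of admissible
families.  `A : Fin 3 → End L V` gives the family `fam t A x = A (arm x) (t x)`; it belongs to
`WF` if it is admissible up to the flags.

* `core_even` (first half): from a flow at two bases of different parity, applied to the family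
  of `e ⊗ f` at one arm, the *even* part shows that `(N e) ⊗ f` at this arm belongs to `WF`.
* `core_odd` (second half): the *odd* part shows the same for `f ⊗ (N e)`.
-/

namespace Vale.Agent.P182.H534

open Module Vale.Agent.P182.H533

section defs

variable {L V X : Type*} [Field L] [AddCommGroup V] [Module L V]

/-- the tensor `p ⊗ w` as an endomorphism -/
def ten (q : V →ₗ[L] V →ₗ[L] L) (p w : V) : End L V := (q w).smulRight p

theorem ten_apply (q : V →ₗ[L] V →ₗ[L] L) (p w v : V) : ten q p w v = q w v • p := rfl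

theorem ten_add_left (q : V →ₗ[L] V →ₗ[L] L) (p p' w : V) :
    ten q (p + p') w = ten q p w + ten q p' w :=
  LinearMap.ext fun v => by
    rw [LinearMap.add_apply, ten_apply, ten_apply, ten_apply, smul_add]

theorem ten_add_right (q : V →ₗ[L] V →ₗ[L] L) (p w w' : V) :
    ten q p (w + w') = ten q p w + ten q p w' :=
  LinearMap.ext fun v => by
    rw [LinearMap.add_apply, ten_apply, ten_apply, ten_apply, map_add, LinearMap.add_apply,
      add_smul]

theorem ten_smul_left (q : V →ₗ[L] V →ₗ[L] L) (c : L) (p w : V) :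
    ten q (c • p) w = c • ten q p w :=
  LinearMap.ext fun v => by
    rw [LinearMap.smul_apply, ten_apply, ten_apply, smul_comm]

theorem ten_smul_right (q : V →ₗ[L] V →ₗ[L] L) (c : L) (p w : V) :
    ten q p (c • w) = c • ten q p w :=
  LinearMap.ext fun v => by
    rw [LinearMap.smul_apply, ten_apply, ten_apply, map_smul, LinearMap.smul_apply, smul_eq_mul,
      mul_smul]

/-- a single arm -/
def sgl (c : Fin 3) : End L V →ₗ[L] (Fin 3 → End L V) :=
  LinearMap.single L (fun _ => End L V) c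

theorem sgl_eq (c : Fin 3) (A : End L V) : sgl c A = (Pi.single c A : Fin 3 → End L V) := rfl

theorem sgl_same (c : Fin 3) (A : End L V) : sgl c A c = A := by
  rw [sgl_eq, Pi.single_eq_same]

theorem sgl_ne {c a : Fin 3} (h : a ≠ c) (A : End L V) : sgl c A a = 0 := by
  rw [sgl_eq, Pi.single_eq_of_ne h]

/-- the family of a triple of endomorphisms -/
def fam (arm : X → Fin 3) (t : X → V) : (Fin 3 → End L V) →ₗ[L] (X → V) where
  toFun A := fun x => A (arm x) (t x)
  map_add' _ _ := rfl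
  map_smul' _ _ := rfl

theorem fam_apply (arm : X → Fin 3) (t : X → V) (A : Fin 3 → End L V) (x : X) :
    fam arm t A x = A (arm x) (t x) := rfl

/-- families which are admissible up to the flags -/
def WF (C : X → Submodule L V) (RR : Submodule L (X → V)) : Submodule L (X → V) where
  carrier := {y | ∃ r ∈ RR, ∀ x, y x - r x ∈ C x}
  add_mem' := by
    rintro y y' ⟨r, hr, h⟩ ⟨r', hr', h'⟩
    refine ⟨r + r', RR.add_mem hr hr', fun x => ?_⟩
    have : (y + y') x - (r + r') x = (y x - r x) + (y' x - r' x) := by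
      simp only [Pi.add_apply]; abel
    rw [this]
    exact (C x).add_mem (h x) (h' x)
  zero_mem' := ⟨0, RR.zero_mem, fun x => by simp⟩
  smul_mem' := by
    rintro c y ⟨r, hr, h⟩
    refine ⟨c • r, RR.smul_mem c hr, fun x => ?_⟩
    have : (c • y) x - (c • r) x = c • (y x - r x) := by
      simp only [Pi.smul_apply, smul_sub]
    rw [this]
    exact (C x).smul_mem c (h x)

theorem mem_WF {C : X → Submodule L V} {RR : Submodule L (X → V)} {y : X → V} :
    y ∈ WF C RR ↔ ∃ r ∈ RR, ∀ x, y x - r x ∈ C x := Iff.rfl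

/-- the triples whose family is admissible up to the flags -/
def WW (arm : X → Fin 3) (C : X → Submodule L V) (RR : Submodule L (X → V)) (t : X → V) :
    Submodule L (Fin 3 → End L V) := (WF C RR).comap (fam arm t)

theorem mem_WW {arm : X → Fin 3} {C : X → Submodule L V} {RR : Submodule L (X → V)} {t : X → V}
    {A : Fin 3 → End L V} : A ∈ WW arm C RR t ↔ fam arm t A ∈ WF C RR := Iff.rfl

theorem mem_WW' {arm : X → Fin 3} {C : X → Submodule L V} {RR : Submodule L (X → V)} {t : X → V}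
    {A : Fin 3 → End L V} :
    A ∈ WW arm C RR t ↔ ∃ r ∈ RR, ∀ x, A (arm x) (t x) - r x ∈ C x := Iff.rfl

end defs

section core

variable {L V X : Type*} [Field L] [AddCommGroup V] [Module L V]
  {q : V →ₗ[L] V →ₗ[L] L} {arm : X → Fin 3} {C : X → Submodule L V}
  {RR : Submodule L (X → V)} {t τ τ' : X → V}

/-- **The derivative of the coefficients.** -/
theorem dq (n : Conn q) {Y : Fin 3 → End L V} (hY : ∀ a, IsSk q (Y a))
    {u u2 ρ : L} (hu : u ≠ 0) {f p s : V} (hτf : ∀ x, q f (τ x) = u * q f (t x))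
    (hτp : ∀ x, q p (τ x) = u * q p (t x)) (hτs : ∀ x, q s (τ x) = u2 * q s (t x))
    (hτY : ∀ a x, q (Y a f) (τ x) = u2 * q (Y a f) (t x))
    (hR : ∀ x, q f (n.δ (τ x) - Y (arm x) (τ x)) = ρ * q f (t x)) (hnf : n.δ f = p + s) :
    ∃ κ : L, ∀ x, n.d (q f (t x)) = κ * q f (t x) + q p (t x) +
      (u2 / u) * q (s - Y (arm x) f) (t x) := by
  refine ⟨n.d u⁻¹ * u + u⁻¹ * ρ, fun x => ?_⟩
  have h1 : q f (t x) = u⁻¹ * q f (τ x) := by
    rw [hτf, ← mul_assoc, inv_mul_cancel₀ hu, one_mul]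
  have h2 : n.d (q f (τ x)) = q p (τ x) + q s (τ x) + q f (n.δ (τ x)) := by
    rw [n.metric, hnf, map_add, LinearMap.add_apply]
  have h3 : q f (n.δ (τ x)) = ρ * q f (t x) - q (Y (arm x) f) (τ x) := by
    have h4 : n.δ (τ x) = (n.δ (τ x) - Y (arm x) (τ x)) + Y (arm x) (τ x) := by abel
    rw [h4, map_add, hR, hY (arm x) f (τ x)]
    ring
  have h5 : n.d (q f (t x)) = n.d u⁻¹ * q f (τ x) + u⁻¹ * n.d (q f (τ x)) := by
    rw [← n.leib, ← h1]
  rw [h5, h2, h3, hτf, hτp, hτs, hτY, map_sub, LinearMap.sub_apply]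
  field_simp
  ring

/-- data of a flow at two bases of different parity -/
structure Par (q : V →ₗ[L] V →ₗ[L] L) (arm : X → Fin 3) (C : X → Submodule L V)
    (t τ : X → V) (Ui Uj : Submodule L V) (ui uj : L) (Y : Fin 3 → End L V)
    (n : Conn q) : Prop where
  i : ∀ w ∈ Ui, ∀ x, q w (τ x) = ui * q w (t x)
  j : ∀ w ∈ Uj, ∀ x, q w (τ x) = uj * q w (t x)
  flag : ∀ x, ∀ v ∈ C x, n.δ v - Y (arm x) v ∈ C x
  Ri : ∃ ρ : L, ∀ w ∈ Ui, ∀ x, q w (n.δ (τ x) - Y (arm x) (τ x)) = ρ * q w (t x)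
  Rj : ∃ ρ : L, ∀ w ∈ Uj, ∀ x, q w (n.δ (τ x) - Y (arm x) (τ x)) = ρ * q w (t x)

/-- the derivative of an admissible family -/
theorem der_mem {Y : Fin 3 → End L V} {n : Conn q}
    (hn : ∀ x, ∀ v ∈ C x, n.δ v - Y (arm x) v ∈ C x) {y r r1 Θ : X → V}
    (hy : ∀ x, y x - r x ∈ C x) (hr1 : r1 ∈ RR) (hΘ : ∀ x, n.δ (r x) = r1 x + Θ x) :
    (fun x => n.δ (y x) - Y (arm x) (y x) + Y (arm x) (r x) - Θ x) ∈ WF C RR := by
  refine ⟨r1, hr1, fun x => ?_⟩
  have h1 := hn x _ (hy x)
  have h2 : n.δ (y x) - Y (arm x) (y x) + Y (arm x) (r x) - Θ x - r1 x =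
      n.δ (y x - r x) - Y (arm x) (y x - r x) := by
    rw [map_sub, map_sub, hΘ]
    abel
  rw [h2]
  exact h1

/-- **First half: the even part.** -/
theorem core_even [CharZero L] {Ui Uj I : Submodule L V} {ui uj : L}
    (hui : ui ≠ 0) {Y T Td : Fin 3 → End L V} (hY : ∀ a, IsSk q (Y a))
    (hYT : ∀ a, Y a = T a - Td a) {n n' : Conn q}
    (h : Par q arm C t τ Ui Uj ui uj Y n) (h' : Par q arm C t τ' Ui Uj (-ui) uj Y n')
    (hT : T ∈ WW arm C RR t) (hTd : Td ∈ WW arm C RR t)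
    {e a a' b f p p' s : V} (ha : a ∈ I ⊓ Uj) (ha' : a' ∈ I ⊓ Uj) (he : e ∈ I ⊓ Uj)
    (hf : f ∈ Ui) (hp : p ∈ Ui) (hp' : p' ∈ Ui) (hs : s ∈ Uj)
    (hne : n.δ e = a + b) (hne' : n'.δ e = a' + b) (hnf : n.δ f = p + s)
    (hnf' : n'.δ f = p' + s) (hYe : ∀ c, Y c e = 0) (hYf : ∀ c, Y c f ∈ Uj) (c : Fin 3)
    (hK : ∀ z ∈ I ⊓ Uj, ∀ w ∈ Ui, sgl c (ten q z w) ∈ WW arm C RR t)
    {r r1 r2 Θ : X → V} (hr : ∀ x, sgl c (ten q e f) (arm x) (t x) -
      r x ∈ C x)
    {ci cj : L} (hrT : ∀ x, T (arm x) (r x) = cj • T (arm x) (t x))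
    (hrTd : ∀ x, Td (arm x) (r x) = ci • Td (arm x) (t x))
    (hr1 : r1 ∈ RR) (hr2 : r2 ∈ RR) (hn1 : ∀ x, n.δ (r x) = r1 x + Θ x)
    (hn2 : ∀ x, n'.δ (r x) = r2 x - Θ x) :
    sgl c (ten q b f) ∈ WW arm C RR t := by
  obtain ⟨ρ, hρ⟩ := h.Ri
  obtain ⟨ρ', hρ'⟩ := h'.Ri
  obtain ⟨κ, hκ⟩ := dq (t := t) (τ := τ) (arm := arm) n hY hui (h.i f hf) (h.i p hp)
    (h.j s hs) (fun a => h.j _ (hYf a)) (hρ f hf) hnf
  obtain ⟨κ', hκ'⟩ := dq (t := t) (τ := τ') (arm := arm) n' hY (neg_ne_zero.mpr hui)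
    (h'.i f hf) (h'.i p' hp') (h'.j s hs) (fun a => h'.j _ (hYf a)) (hρ' f hf) hnf'
  have h1 := der_mem (RR := RR) h.flag hr hr1 hn1
  have h2 := der_mem (RR := RR) h'.flag hr hr2 (Θ := fun x => - Θ x)
    (fun x => by rw [hn2, sub_eq_add_neg])
  have h3 := (WF C RR).add_mem h1 h2
  -- the known terms
  have k1 : sgl c ((κ + κ') • ten q e f + ten q e (p + p') + ten q (a + a') f) ∈
      WW arm C RR t := by
    rw [map_add, map_add, map_smul]
    refine Submodule.add_mem _ (Submodule.add_mem _ (Submodule.smul_mem _ _ (hK _ he _ hf)) ?_) ?_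
    · exact hK _ he _ (Ui.add_mem hp hp')
    · exact hK _ (Submodule.add_mem _ ha ha') _ hf
  have k2 : (2 * cj) • T - (2 * ci) • Td ∈ WW arm C RR t :=
    Submodule.sub_mem _ (Submodule.smul_mem _ _ hT) (Submodule.smul_mem _ _ hTd)
  have h4 : fam arm t ((2 : L) • sgl c (ten q b f)) ∈ WF C RR := by
    have e2 : fam arm t ((2 : L) • sgl c (ten q b f)) =
        ((fun x => n.δ (sgl c (ten q e f) (arm x) (t x)) -
          Y (arm x) (sgl c (ten q e f) (arm x) (t x)) +
          Y (arm x) (r x) - Θ x) +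
        (fun x => n'.δ (sgl c (ten q e f) (arm x) (t x)) -
          Y (arm x) (sgl c (ten q e f) (arm x) (t x)) +
          Y (arm x) (r x) - -Θ x)) -
        fam arm t (sgl c ((κ + κ') • ten q e f + ten q e (p + p') + ten q (a + a') f)) -
        fam arm t ((2 * cj) • T - (2 * ci) • Td) := by
      funext x
      simp only [fam_apply, Pi.add_apply, Pi.sub_apply, Pi.smul_apply]
      have e3 : Y (arm x) (r x) = cj • T (arm x) (t x) - ci • Td (arm x) (t x) := by
        rw [hYT, LinearMap.sub_apply, hrT, hrTd]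
      by_cases hx : arm x = c
      · subst hx
        rw [sgl_same, sgl_same, sgl_same]
        have e4 : Y (arm x) (ten q e f (t x)) = 0 := by
          rw [ten_apply, map_smul, hYe, smul_zero]
        rw [e3, e4]
        simp only [ten_apply, LinearMap.add_apply, LinearMap.smul_apply, LinearMap.sub_apply]
        rw [n.smul, n'.smul, hκ, hκ', hne, hne']
        simp only [map_add, map_sub, LinearMap.add_apply, LinearMap.sub_apply]
        have e5 : uj / -ui = -(uj / ui) := by rw [div_neg]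
        rw [e5]
        module
      · rw [sgl_ne hx, sgl_ne hx, sgl_ne hx]
        rw [e3]
        simp only [LinearMap.zero_apply, map_zero, LinearMap.smul_apply, LinearMap.sub_apply]
        module
    rw [e2]
    exact (WF C RR).sub_mem ((WF C RR).sub_mem h3 k1) k2
  rw [map_smul] at h4
  have h5 := (WF C RR).smul_mem (2 : L)⁻¹ h4
  rwa [smul_smul, inv_mul_cancel₀ two_ne_zero, one_smul] at h5

/-- **Second half: the odd part.** -/
theorem core_odd [CharZero L] {Ui Uj I : Submodule L V} {ui uj : L}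
    (hui : ui ≠ 0) (huj : uj ≠ 0) {Y : Fin 3 → End L V} (hY : ∀ a, IsSk q (Y a))
    {n n' : Conn q}
    (h : Par q arm C t τ Ui Uj ui uj Y n) (h' : Par q arm C t τ' Ui Uj (-ui) uj Y n')
    {e a a' b f p p' s : V} (ha : a ∈ I ⊓ Uj) (ha' : a' ∈ I ⊓ Uj) (he : e ∈ I ⊓ Uj)
    (hb : b ∈ Ui) (hf : f ∈ Ui) (hp : p ∈ Ui) (hp' : p' ∈ Ui)
    (hne : n.δ e = a + b) (hne' : n'.δ e = a' + b) (hnf : n.δ f = p + s)
    (hnf' : n'.δ f = p' + s) (hYe : ∀ c, Y c e = 0) (c : Fin 3)
    (hK : ∀ z ∈ I ⊓ Uj, ∀ w ∈ Ui, sgl c (ten q w z) ∈ WW arm C RR t)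
    {r r1 r2 Θ : X → V} (hr : ∀ x, sgl c (ten q f e) (arm x) (t x) -
      r x ∈ C x) (hΘ : Θ ∈ WF C RR)
    (hr1 : r1 ∈ RR) (hr2 : r2 ∈ RR) (hn1 : ∀ x, n.δ (r x) = r1 x + Θ x)
    (hn2 : ∀ x, n'.δ (r x) = r2 x - Θ x) :
    sgl c (ten q f b) ∈ WW arm C RR t := by
  obtain ⟨ρ, hρ⟩ := h.Rj
  obtain ⟨ρ', hρ'⟩ := h'.Rj
  have hY0 : ∀ c x, ∀ v : L, q (Y c e) (τ x) = v * q (Y c e) (t x) := by
    intro c x v
    rw [hYe, map_zero, LinearMap.zero_apply, LinearMap.zero_apply, mul_zero]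
  have hY0' : ∀ c x, ∀ v : L, q (Y c e) (τ' x) = v * q (Y c e) (t x) := by
    intro c x v
    rw [hYe, map_zero, LinearMap.zero_apply, LinearMap.zero_apply, mul_zero]
  obtain ⟨κ, hκ⟩ := dq (t := t) (τ := τ) (arm := arm) n hY huj (h.j e he.2) (h.j a ha.2)
    (h.i b hb) (fun c x => hY0 c x ui) (hρ e he.2) hne
  obtain ⟨κ', hκ'⟩ := dq (t := t) (τ := τ') (arm := arm) n' hY huj
    (h'.j e he.2) (h'.j a' ha'.2) (h'.i b hb) (fun c x => hY0' c x (-ui)) (hρ' e he.2) hne'
  have h1 := der_mem (RR := RR) h.flag hr hr1 hn1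
  have h2 := der_mem (RR := RR) h'.flag hr hr2 (Θ := fun x => - Θ x)
    (fun x => by rw [hn2, sub_eq_add_neg])
  have h3 := (WF C RR).sub_mem h1 h2
  -- the known terms
  have k1 : sgl c ((κ - κ') • ten q f e + ten q f (a - a') + ten q (p - p') e) ∈
      WW arm C RR t := by
    rw [map_add, map_add, map_smul]
    refine Submodule.add_mem _ (Submodule.add_mem _ (Submodule.smul_mem _ _ (hK _ he _ hf)) ?_) ?_
    · exact hK _ (Submodule.sub_mem _ ha ha') _ hf
    · exact hK _ he _ (Ui.sub_mem hp hp')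
  have hc0 : (2 : L) * (ui / uj) ≠ 0 := mul_ne_zero two_ne_zero (div_ne_zero hui huj)
  have h4 : fam arm t ((2 * (ui / uj)) • sgl c (ten q f b)) ∈ WF C RR := by
    have e2 : fam arm t ((2 * (ui / uj)) • sgl c (ten q f b)) =
        ((fun x => n.δ (sgl c (ten q f e) (arm x) (t x)) -
          Y (arm x) (sgl c (ten q f e) (arm x) (t x)) +
          Y (arm x) (r x) - Θ x) -
        (fun x => n'.δ (sgl c (ten q f e) (arm x) (t x)) -
          Y (arm x) (sgl c (ten q f e) (arm x) (t x)) +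
          Y (arm x) (r x) - -Θ x)) -
        fam arm t (sgl c ((κ - κ') • ten q f e + ten q f (a - a') + ten q (p - p') e)) +
        (2 : L) • Θ := by
      funext x
      simp only [fam_apply, Pi.add_apply, Pi.sub_apply, Pi.smul_apply]
      by_cases hx : arm x = c
      · subst hx
        rw [sgl_same, sgl_same, sgl_same]
        simp only [ten_apply, LinearMap.add_apply, LinearMap.smul_apply]
        rw [n.smul, n'.smul, hκ, hκ', hnf, hnf', hYe, sub_zero]
        simp only [map_sub, LinearMap.sub_apply]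
        have e5 : -ui / uj = -(ui / uj) := by rw [neg_div]
        rw [e5]
        module
      · rw [sgl_ne hx, sgl_ne hx, sgl_ne hx]
        simp only [LinearMap.zero_apply, map_zero, LinearMap.smul_apply]
        module
    rw [e2]
    exact (WF C RR).add_mem ((WF C RR).sub_mem h3 k1) ((WF C RR).smul_mem _ hΘ)
  rw [map_smul] at h4
  have h5 := (WF C RR).smul_mem (2 * (ui / uj))⁻¹ h4
  rwa [smul_smul, inv_mul_cancel₀ hc0, one_smul] at h5

end core

end Vale.Agent.P182.H534
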