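import Vale.Agent.P182.H983.GDef
import Vale.Agent.P182.H534.C0
import Vale.Agent.P182.H952.Flow3

/-!
# (C0b): the families of `I ⊗ W` and `W ⊗ I` at single arms are admissible

The flows at two bases of different parity, applied to `e ⊗ f` resp. `f ⊗ e` at one arm, `e` in
`U j ⊓ I`, `f` in a block with the same eigenvalue as `U i`.
-/

namespace Vale.Agent.P182.H534

open Module Matrix Vale.Agent.P182.H533 Vale.Agent.P182.B1 Vale.Agent.P182.H922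
  Vale.Agent.P182.H578 Vale.Agent.P182.H588 Vale.Agent.P182.H181

section conv

variable {L V J : Type*} [Field L] [AddCommGroup V] [Module L V] [Fintype J] [DecidableEq J]

/-- the arms of the doubled index set -/
def armX (𝒟 : Cfg L V J) : J ⊕ J → Fin 3 := Sum.elim 𝒟.arm 𝒟.arm

/-- the flags of the doubled index set -/
def CX (𝒟 : Cfg L V J) : J ⊕ J → Submodule L V := Sum.elim 𝒟.C (fun l => perp 𝒟.q (𝒟.C l))

/-- the doubled family -/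
def ext (𝒟 : Cfg L V J) (r : J → V) : J ⊕ J → V := Sum.elim r (𝒟.om r)

omit [DecidableEq J] in
theorem ext_inl (𝒟 : Cfg L V J) (r : J → V) (l : J) : ext 𝒟 r (Sum.inl l) = r l := rfl

omit [DecidableEq J] in
theorem ext_inr (𝒟 : Cfg L V J) (r : J → V) (l : J) : ext 𝒟 r (Sum.inr l) = 𝒟.om r l := rfl

/-- the admissible families, doubled -/
def RX (𝒟 : Cfg L V J) (t : J → V) (W I : Submodule L V) (u : J → L) :
    Submodule L (J ⊕ J → V) where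
  carrier := {ρ | ∃ r ∈ Uu V u, (∃ Γ, RelG 𝒟 W I t Γ r) ∧ ρ = ext 𝒟 r}
  zero_mem' := ⟨0, (Uu V u).zero_mem, ⟨0, H983.relG_zero⟩, by
    funext x
    rcases x with l | l
    · rfl
    · rw [ext_inr]
      simp [Cfg.om]⟩
  add_mem' := by
    rintro _ _ ⟨r, hr, ⟨Γ, hΓ⟩, rfl⟩ ⟨r', hr', ⟨Γ', hΓ'⟩, rfl⟩
    refine ⟨r + r', (Uu V u).add_mem hr hr', ⟨Γ + Γ', H983.relG_add hΓ hΓ'⟩, ?_⟩
    funext x
    rcases x with l | l
    · rfl
    · rw [ext_inr, om_add]; rfl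
  smul_mem' := by
    rintro c _ ⟨r, hr, ⟨Γ, hΓ⟩, rfl⟩
    refine ⟨c • r, (Uu V u).smul_mem c hr, ⟨c • Γ, H983.relG_smul hΓ c⟩, ?_⟩
    funext x
    rcases x with l | l
    · rfl
    · rw [ext_inr, om_smul]; rfl

theorem ext_mem {𝒟 : Cfg L V J} {t : J → V} {W I : Submodule L V} {u : J → L} {r : J → V}
    (hr : r ∈ Uu V u) (hΓ : ∃ Γ, RelG 𝒟 W I t Γ r) : ext 𝒟 r ∈ RX 𝒟 t W I u :=
  ⟨r, hr, hΓ, rfl⟩

theorem mem_iff {𝒟 : Cfg L V J} {t : J → V} {W I : Submodule L V} {u : J → L}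
    {T : Fin 3 → End L V} : H983.fam 𝒟 t T ∈ H983.WF 𝒟 t W I u ↔
      T ∈ WW (armX 𝒟) (CX 𝒟) (RX 𝒟 t W I u) (ext 𝒟 t) := by
  rw [H983.mem_WF, mem_WW']
  constructor
  · rintro ⟨r, hr, hΓ, hn⟩
    refine ⟨ext 𝒟 r, ext_mem hr hΓ, fun x => ?_⟩
    rcases x with l | l
    · exact (hn l).1
    · exact (hn l).2
  · rintro ⟨_, ⟨r, hr, hΓ, rfl⟩, hn⟩
    exact ⟨r, hr, hΓ, fun l => ⟨hn (Sum.inl l), hn (Sum.inr l)⟩⟩

theorem mem_iff_sgl {𝒟 : Cfg L V J} {t : J → V} {W I : Submodule L V} {u : J → L} {c : Fin 3}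
    {p w : V} : H983.fam 𝒟 t (Pi.single c (H983.tp 𝒟.q p w)) ∈ H983.WF 𝒟 t W I u ↔
      sgl c (ten 𝒟.q p w) ∈ WW (armX 𝒟) (CX 𝒟) (RX 𝒟 t W I u) (ext 𝒟 t) := mem_iff

end conv

section defs

variable {L V J : Type*} [Field L] [AddCommGroup V] [Module L V] [Fintype J] [DecidableEq J]

/-- the correction term of the flow with two sections -/
noncomputable def BB (𝒟 : Cfg L V J) (τ r : J → V) (T Td ξ ξ' ξd ξd' : Fin 3 → End L V)
    (a : Fin 3) : End L V :=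
  (∑ b, opr 𝒟.q (Tt L r) (Gm 𝒟.arm 𝒟.Ω b) (Tt L τ) * ξ b) * T a -
    (∑ b, opr 𝒟.q (Tt L r) (Gm 𝒟.arm 𝒟.Ω b) (Tt L τ) * ξ' b) * Td a +
    ∑ c, ((opr 𝒟.q (Tt L r) (Gm 𝒟.arm 𝒟.Ω c) (Tt L τ) -
        (∑ b, opr 𝒟.q (Tt L r) (Gm 𝒟.arm 𝒟.Ω b) (Tt L τ) * ξ b) * Res 𝒟 τ c) * T c * ξd' a -
      (opr 𝒟.q (Tt L r) (Gm 𝒟.arm 𝒟.Ω c) (Tt L τ) -
        (∑ b, opr 𝒟.q (Tt L r) (Gm 𝒟.arm 𝒟.Ω b) (Tt L τ) * ξ' b) * Res 𝒟 τ c) * Td c * ξd a)

/-- a two-section flow at `τ`, for the class at `t` -/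
structure FB (𝒟 : Cfg L V J) (u : J → L) (W I : Submodule L V) (t τ : J → V)
    (T Td ξ ξ' ξd ξd' : Fin 3 → End L V) (n : H533.Conn 𝒟.q) (R : J → V) : Prop where
  memR : R ∈ Ku 𝒟 u
  flag : ∀ s i, ∀ v ∈ 𝒟.F s i, n.δ v - (T s - Td s) v ∈ 𝒟.F s i
  tau : ∀ l, n.δ (τ l) = (T (𝒟.arm l) - Td (𝒟.arm l)) (τ l) + R l
  om : ∀ l, n.δ (𝒟.om τ l) = (T (𝒟.arm l) - Td (𝒟.arm l)) (𝒟.om τ l) + 𝒟.om R l
  fam : ∀ r ∈ Uu V u, (∃ Γ, RelG 𝒟 W I t Γ r) → ∃ r1 ∈ Uu V u, (∃ Γ, RelG 𝒟 W I t Γ r1) ∧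
    ∀ l, n.δ (r l) = r1 l + BB 𝒟 τ r T Td ξ ξ' ξd ξd' (𝒟.arm l) (τ l) ∧
      n.δ (𝒟.om r l) = 𝒟.om r1 l + BB 𝒟 τ r T Td ξ ξ' ξd ξd' (𝒟.arm l) (𝒟.om τ l)

/-- the connection and the blocks -/
structure NB (I : Submodule L V) {k : ℕ} (U : Fin k → Submodule L V) (i j : Fin k)
    (n : V → V) : Prop where
  mapI : ∀ v ∈ I, n v ∈ I
  mapUj : ∀ v ∈ U j, n v ∈ U j ⊔ (U i ⊓ I)
  mapUi : ∀ v ∈ U i, n v ∈ U i ⊔ (U j ⊓ I)
  mapUk : ∀ m, m ≠ i → m ≠ j → ∀ v ∈ U m, n v ∈ U m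

/-- the sum of the blocks with the same eigenvalue -/
def Uc {k : ℕ} (U : Fin k → Submodule L V) (d : Fin k → L) (i : Fin k) : Submodule L V :=
  ⨆ m, ⨆ (_ : d m = d i), U m

theorem le_Uc {k : ℕ} {U : Fin k → Submodule L V} {d : Fin k → L} {i m : Fin k}
    (h : d m = d i) : U m ≤ Uc U d i := le_iSup₂_of_le m h le_rfl

theorem Uc_le {k : ℕ} {U : Fin k → Submodule L V} {d : Fin k → L} {i : Fin k}
    {X : Submodule L V} (h : ∀ m, d m = d i → U m ≤ X) : Uc U d i ≤ X := iSup₂_le h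

end defs

section steps

universe u v w

variable {L : Type u} {V : Type v} {J : Type w} [Field L] [AddCommGroup V] [Module L V]
  [Fintype J] [DecidableEq J] {𝒟 : Cfg L V J} {u : J → L} {t t' : J → V} {W I : Submodule L V}
  {k : ℕ} {U : Fin k → Submodule L V} {d : Fin k → L} {p : Fin 3 → ℕ}

/-- row OFF in the form needed here -/
def OffRow (𝒟 : Cfg L V J) (u : J → L) (t : J → V) (W I : Submodule L V)
    (U : Fin k → Submodule L V) (d : Fin k → L) : Prop :=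
  ∀ i j, d i ≠ d j → ∀ e ∈ U i ⊓ I, ∀ f ∈ U j, ∀ a,
    H983.fam 𝒟 t (Pi.single a (H983.tp 𝒟.q e f)) ∈ H983.WFe 𝒟 t W I u U ∧
    H983.fam 𝒟 t (Pi.single a (H983.tp 𝒟.q f e)) ∈ H983.WF 𝒟 t W I u

theorem q_tm (hB : H983.Blk 𝒟 u t t' W I U d p) (x y : L) (m : Fin k) {w : V} (hw : w ∈ U m)
    (hq : IsForm 𝒟.q) (l : J) :
    𝒟.q w (H983.tm t t' x y l) = (x + y * d m) * 𝒟.q w (t l) := by
  have h1 := hB.star m w hw l
  rw [hq.symm, hq.symm (t l)] at h1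
  show 𝒟.q w (x • t l + y • t' l) = _
  rw [map_add, map_smul, map_smul, h1, smul_eq_mul, smul_eq_mul]
  ring

omit [DecidableEq J] in
/-- pairing with `om` -/
theorem q_ext {τ t : J → V} {c : L} {w : V} (h : ∀ l, 𝒟.q w (τ l) = c * 𝒟.q w (t l))
    (x : J ⊕ J) : 𝒟.q w (ext 𝒟 τ x) = c * 𝒟.q w (ext 𝒟 t x) := by
  rcases x with l | l
  · exact h l
  · rw [ext_inr, ext_inr]
    simp only [Cfg.om, map_sum, map_smul, smul_eq_mul, Finset.mul_sum]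
    refine Finset.sum_congr rfl fun j _ => ?_
    rw [h j]
    ring

theorem q_Uc (hB : H983.Blk 𝒟 u t t' W I U d p) (hq : IsForm 𝒟.q) (x y : L) (i : Fin k)
    {w : V} (hw : w ∈ Uc U d i) (l : J ⊕ J) :
    𝒟.q w (ext 𝒟 (H983.tm t t' x y) l) = (x + y * d i) * 𝒟.q w (ext 𝒟 t l) := by
  let X : Submodule L V :=
    { carrier := {w | 𝒟.q w (ext 𝒟 (H983.tm t t' x y) l) = (x + y * d i) * 𝒟.q w (ext 𝒟 t l)}
      zero_mem' := by simp
      add_mem' := by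
        intro a b ha hb
        simp only [Set.mem_ofPred_eq, map_add, LinearMap.add_apply] at *
        rw [ha, hb]
        ring
      smul_mem' := by
        intro c a ha
        simp only [Set.mem_ofPred_eq, map_smul, LinearMap.smul_apply, smul_eq_mul] at *
        rw [ha]
        ring }
  have h1 : Uc U d i ≤ X := Uc_le fun m hm w hw => by
    have := q_ext (fun l => q_tm hB x y m hw hq l) l
    rw [hm] at this
    exact this
  exact h1 hw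

/-- the flow gives the data at one base -/
theorem par_of (hG : 𝒟.Good) (hB : H983.Blk 𝒟 u t t' W I U d p) {x y : L} {i j : Fin k}
    {T Td ξ ξ' ξd ξd' : Fin 3 → End L V} {n : H533.Conn 𝒟.q} {R : J → V}
    (hY : ∀ a, IsSk 𝒟.q (T a - Td a))
    (hF : FB 𝒟 u W I t (H983.tm t t' x y) T Td ξ ξ' ξd ξd' n R) :
    Par 𝒟.q (armX 𝒟) (CX 𝒟) (ext 𝒟 t) (ext 𝒟 (H983.tm t t' x y)) (Uc U d i) (U j)
      (x + y * d i) (x + y * d j) (fun a => T a - Td a) n := by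
  obtain ⟨α, β, hR⟩ := hB.span R hF.memR
  have hn : ∀ l : J ⊕ J, n.δ (ext 𝒟 (H983.tm t t' x y) l) - (T (armX 𝒟 l) - Td (armX 𝒟 l))
      (ext 𝒟 (H983.tm t t' x y) l) = ext 𝒟 R l := by
    rintro (l | l)
    · show n.δ (H983.tm t t' x y l) - _ = R l
      rw [hF.tau]
      exact add_sub_cancel_left _ _
    · show n.δ (𝒟.om (H983.tm t t' x y) l) - _ = 𝒟.om R l
      rw [hF.om]
      exact add_sub_cancel_left _ _
  have hRtm : R = H983.tm t t' α β := hR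
  refine ⟨fun w hw l => q_Uc hB hG.form x y i hw l,
    fun w hw l => q_Uc hB hG.form x y j (le_Uc rfl hw) l, ?_,
    ⟨α + β * d i, fun w hw l => ?_⟩, ⟨α + β * d j, fun w hw l => ?_⟩⟩
  · have hC : ∀ l, ∀ v ∈ 𝒟.C l, n.δ v - (T (𝒟.arm l) - Td (𝒟.arm l)) v ∈ 𝒟.C l := by
      intro l v hv
      have e : 𝒟.C l = 𝒟.F (𝒟.arm l) (𝒟.c l) := by rw [Cfg.C]
      rw [e] at hv ⊢
      exact hF.flag _ _ v hv
    rintro (l | l) v hv
    · exact hC l v hv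
    · exact H922.conn_perp n (hY _) (hC l) v hv
  · rw [hn, hRtm]
    exact q_Uc hB hG.form α β i hw l
  · rw [hn, hRtm]
    exact q_Uc hB hG.form α β j (le_Uc rfl hw) l

/-- the common data of the two halves -/
structure Two (𝒟 : Cfg L V J) (u : J → L) (t t' : J → V) (W I : Submodule L V)
    (U : Fin k → Submodule L V) (d : Fin k → L) (i j : Fin k) (x y x' y' : L)
    (T Td ξ ξ' ξd ξd' : Fin 3 → End L V) (n n' : H533.Conn 𝒟.q) (R R' : J → V) : Prop where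
  dij : d i ≠ d j
  hi : x + y * d i ≠ 0
  hj : x + y * d j ≠ 0
  hi' : x' + y' * d i = -(x + y * d i)
  hj' : x' + y' * d j = x + y * d j
  T_mem : ∀ a, T a ∈ H983.Ten 𝒟.q (U i) (U j)
  Td_mem : ∀ a, Td a ∈ H983.Ten 𝒟.q (U j) (U i)
  adj : ∀ a, H983.IsAdj 𝒟.q (T a) (Td a)
  TW : H983.fam 𝒟 t T ∈ H983.WF 𝒟 t W I u
  TdW : H983.fam 𝒟 t Td ∈ H983.WF 𝒟 t W I u
  F : FB 𝒟 u W I t (H983.tm t t' x y) T Td ξ ξ' ξd ξd' n R
  F' : FB 𝒟 u W I t (H983.tm t t' x' y') T Td ξ ξ' ξd ξd' n' R'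
  N : NB I U i j n.δ
  N' : NB I U i j n'.δ
  diffj : ∀ v ∈ U j, n.δ v - n'.δ v ∈ U j
  diffi : ∀ v ∈ U i, n.δ v - n'.δ v ∈ U i
  par : ∀ r ∈ Uu V u, (∃ Γ, RelG 𝒟 W I t Γ r) → ∀ a l,
    BB 𝒟 (H983.tm t t' x' y') r T Td ξ ξ' ξd ξd' a (H983.tm t t' x' y' l) =
      -BB 𝒟 (H983.tm t t' x y) r T Td ξ ξ' ξd ξd' a (H983.tm t t' x y l) ∧
    BB 𝒟 (H983.tm t t' x' y') r T Td ξ ξ' ξd ξd' a (𝒟.om (H983.tm t t' x' y') l) =
      -BB 𝒟 (H983.tm t t' x y) r T Td ξ ξ' ξd ξd' a (𝒟.om (H983.tm t t' x y) l)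

variable {i j : Fin k} {x y x' y' : L} {T Td ξ ξ' ξd ξd' : Fin 3 → End L V}
  {n n' : H533.Conn 𝒟.q} {R R' : J → V}

theorem Two.skew (hq : IsForm 𝒟.q)
    (h : Two 𝒟 u t t' W I U d i j x y x' y' T Td ξ ξ' ξd ξd' n n' R R') (a : Fin 3) :
    IsSk 𝒟.q (T a - Td a) := by
  intro v w
  have h1 := h.adj a v w
  have h2 := h.adj a w v
  rw [LinearMap.sub_apply, LinearMap.sub_apply, map_sub, map_sub, LinearMap.sub_apply, h1,
    hq.symm (Td a v) w, ← h2, hq.symm (T a w) v]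
  ring

omit [Fintype J] [DecidableEq J] in
theorem Ten_zero {A : End L V} {U U' : Submodule L V} (hA : A ∈ H983.Ten 𝒟.q U U') {v : V}
    (hv : ∀ w ∈ U', 𝒟.q v w = 0) : A v = 0 := hA.2 v hv

theorem I_perp (hB : H983.Blk 𝒟 u t t' W I U d p) {e : V} (he : e ∈ I) (m : Fin k) :
    ∀ w ∈ U m, 𝒟.q e w = 0 := by
  intro w hw
  rw [hB.I_eq] at he
  exact he.2 w (hB.supU ▸ (le_iSup U m) hw)

theorem Two.Ye (hB : H983.Blk 𝒟 u t t' W I U d p)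
    (h : Two 𝒟 u t t' W I U d i j x y x' y' T Td ξ ξ' ξd ξd' n n' R R') {e : V} (he : e ∈ I)
    (a : Fin 3) : (T a - Td a) e = 0 := by
  rw [LinearMap.sub_apply, Ten_zero (h.T_mem a) (I_perp hB he j),
    Ten_zero (h.Td_mem a) (I_perp hB he i), sub_zero]

/-- the derivative of an element of `U j ⊓ I` -/
theorem Two.der_e (h : Two 𝒟 u t t' W I U d i j x y x' y' T Td ξ ξ' ξd ξd' n n' R R') {e : V}
    (he : e ∈ U j ⊓ I) : ∃ a a' b, a ∈ I ⊓ U j ∧ a' ∈ I ⊓ U j ∧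
      b ∈ U i ⊓ I ∧ n.δ e = a + b ∧ n'.δ e = a' + b := by
  obtain ⟨a, ha, b, hb, h1⟩ := Submodule.mem_sup.mp (h.N.mapUj e he.1)
  have h2 := h.N.mapI e he.2
  have h3 := h.N'.mapI e he.2
  have h4 := h.diffj e he.1
  have haI : a ∈ I := by
    have : a = n.δ e - b := by rw [← h1]; abel
    rw [this]
    exact I.sub_mem h2 hb.2
  have ha' : a - (n.δ e - n'.δ e) ∈ U j := (U j).sub_mem ha h4
  have haI' : a - (n.δ e - n'.δ e) ∈ I := I.sub_mem haI (I.sub_mem h2 h3)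
  refine ⟨a, a - (n.δ e - n'.δ e), b, ⟨haI, ha⟩, ⟨haI', ha'⟩, hb, h1.symm, ?_⟩
  rw [← h1]
  abel

/-- the derivative of an element of a block with the eigenvalue `d i` -/
theorem Two.der_f (h : Two 𝒟 u t t' W I U d i j x y x' y' T Td ξ ξ' ξd ξd' n n' R R')
    {m : Fin k} (hm : d m = d i) {f : V} (hf : f ∈ U m) : ∃ p p' s, p ∈ Uc U d i ∧
      p' ∈ Uc U d i ∧ s ∈ U j ∧ n.δ f = p + s ∧ n'.δ f = p' + s := by
  by_cases hmi : m = i
  · subst hmi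
    obtain ⟨a, ha, b, hb, h1⟩ := Submodule.mem_sup.mp (h.N.mapUi f hf)
    have h4 := h.diffi f hf
    refine ⟨a, a - (n.δ f - n'.δ f), b, le_Uc rfl ha, le_Uc rfl ((U m).sub_mem ha h4),
      hb.1, h1.symm, ?_⟩
    rw [← h1]
    abel
  · have hmj : m ≠ j := fun e => h.dij (by rw [← hm, e])
    exact ⟨n.δ f, n'.δ f, 0, le_Uc hm (h.N.mapUk m hmi hmj f hf),
      le_Uc hm (h.N'.mapUk m hmi hmj f hf), zero_mem _, by rw [add_zero], by rw [add_zero]⟩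

/-- the known families -/
theorem known1 (hOFF : OffRow 𝒟 u t W I U d)
    (hij : d i ≠ d j) (c : Fin 3) : ∀ z ∈ I ⊓ U j, ∀ w ∈ Uc U d i,
      sgl c (ten 𝒟.q z w) ∈ WW (armX 𝒟) (CX 𝒟) (RX 𝒟 t W I u) (ext 𝒟 t) ∧
      sgl c (ten 𝒟.q w z) ∈ WW (armX 𝒟) (CX 𝒟) (RX 𝒟 t W I u) (ext 𝒟 t) := by
  intro z hz w hw
  let X : Submodule L V :=
    { carrier := {w | sgl c (ten 𝒟.q z w) ∈ WW (armX 𝒟) (CX 𝒟) (RX 𝒟 t W I u) (ext 𝒟 t) ∧
        sgl c (ten 𝒟.q w z) ∈ WW (armX 𝒟) (CX 𝒟) (RX 𝒟 t W I u) (ext 𝒟 t)}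
      zero_mem' := by
        have h1 : ten 𝒟.q z 0 = 0 := LinearMap.ext fun v => by simp [ten_apply]
        have h2 : ten 𝒟.q 0 z = 0 := LinearMap.ext fun v => by simp [ten_apply]
        simp only [Set.mem_ofPred_eq]
        rw [h1, h2, map_zero]
        exact ⟨zero_mem _, zero_mem _⟩
      add_mem' := by
        rintro a b ⟨ha, ha'⟩ ⟨hb, hb'⟩
        simp only [Set.mem_ofPred_eq]
        rw [ten_add_right, ten_add_left, map_add, map_add]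
        exact ⟨add_mem ha hb, add_mem ha' hb'⟩
      smul_mem' := by
        rintro c' a ⟨ha, ha'⟩
        simp only [Set.mem_ofPred_eq]
        rw [ten_smul_right, ten_smul_left, map_smul, map_smul]
        exact ⟨Submodule.smul_mem _ _ ha, Submodule.smul_mem _ _ ha'⟩ }
  have h1 : Uc U d i ≤ X := Uc_le fun m hm w hw => by
    have h2 := hOFF j m (by rw [hm]; exact hij.symm) z ⟨hz.2, hz.1⟩ w hw c
    exact ⟨mem_iff_sgl.mp (H983.WFe_le 𝒟 t W I h2.1), mem_iff_sgl.mp h2.2⟩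
  exact h1 hw

/-- **First half of (C0b).** -/
theorem Two.first [CharZero L] (hG : 𝒟.Good) (hB : H983.Blk 𝒟 u t t' W I U d p)
    (hOFF : OffRow 𝒟 u t W I U d)
    (h : Two 𝒟 u t t' W I U d i j x y x' y' T Td ξ ξ' ξd ξd' n n' R R') {e f : V}
    (he : e ∈ U j ⊓ I) {m : Fin k} (hm : d m = d i) (hf : f ∈ U m) (c : Fin 3) :
    H983.fam 𝒟 t (Pi.single c (H983.tp 𝒟.q (n.δ e) f)) ∈ H983.WF 𝒟 t W I u := by
  obtain ⟨a, a', b, ha, ha', hb, hne, hne'⟩ := h.der_e he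
  obtain ⟨p0, p0', s, hp, hp', hs, hnf, hnf'⟩ := h.der_f hm hf
  have hK := known1 hOFF h.dij c
  have hsk := h.skew hG.form
  have hmj : m ≠ j := fun e => h.dij (by rw [← hm, e])
  have hTf : ∀ a, T a f = 0 := fun a => Ten_zero (h.T_mem a) fun w hw => hB.ortho m j hmj f hf w hw
  -- the admissible family of `e ⊗ f`
  obtain ⟨r, hr, hΓ, ⟨cc, hcc⟩, hn⟩ := (hOFF j m (by rw [hm]; exact h.dij.symm) e he f hf c).1
  obtain ⟨r1, hr1, hΓ1, h1⟩ := h.F.fam r hr hΓ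
  obtain ⟨r2, hr2, hΓ2, h2⟩ := h.F'.fam r hr hΓ
  have hpar := h.par r hr hΓ
  have hex : ∀ (A : End L V) (q : Fin k), (∀ v ∈ perp 𝒟.q (U q), A v = 0) →
      ∀ l, A (ext 𝒟 r l) = cc q • A (ext 𝒟 t l) := by
    intro A q hA l
    rw [← map_smul, ← sub_eq_zero, ← map_sub]
    apply hA
    intro w hw
    have h3 := q_ext (𝒟 := 𝒟) (τ := r) (t := t) (c := cc q) (w := w) (hcc q w hw) l
    rw [map_sub, map_smul, LinearMap.sub_apply, LinearMap.smul_apply, hG.form.symm _ w,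
      hG.form.symm _ w, h3, smul_eq_mul, sub_self]
  have key : sgl c (ten 𝒟.q b f) ∈ WW (armX 𝒟) (CX 𝒟) (RX 𝒟 t W I u) (ext 𝒟 t) := by
    refine core_even (τ := ext 𝒟 (H983.tm t t' x y)) (τ' := ext 𝒟 (H983.tm t t' x' y'))
      (Ui := Uc U d i) (Uj := U j) (I := I) (ui := x + y * d i) (uj := x + y * d j) h.hi
      (Y := fun a => T a - Td a) (T := T) (Td := Td) hsk (fun _ => rfl)
      (par_of hG hB hsk h.F) ?_ (mem_iff.mp h.TW) (mem_iff.mp h.TdW) ha ha' ⟨he.2, he.1⟩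
      (le_Uc hm hf) hp hp' hs hne hne' hnf hnf' (h.Ye hB he.2) ?_ c
      (fun z hz w hw => (hK z hz w hw).1) (r := ext 𝒟 r) (r1 := ext 𝒟 r1) (r2 := ext 𝒟 r2)
      (Θ := fun l => BB 𝒟 (H983.tm t t' x y) r T Td ξ ξ' ξd ξd' (armX 𝒟 l)
        (ext 𝒟 (H983.tm t t' x y) l)) ?_ (ci := cc i) (cj := cc j)
      (fun l => hex _ j (h.T_mem _).2 l) (fun l => hex _ i (h.Td_mem _).2 l)
      (ext_mem hr1 hΓ1) (ext_mem hr2 hΓ2) ?_ ?_
    · have h3 := par_of (i := i) (j := j) hG hB hsk h.F'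
      rw [h.hi', h.hj'] at h3
      exact h3
    · intro a
      show (T a - Td a) f ∈ U j
      rw [LinearMap.sub_apply, hTf, zero_sub]
      exact (U j).neg_mem ((h.Td_mem a).1 f)
    · rintro (l | l)
      · exact (hn l).1
      · exact (hn l).2
    · rintro (l | l)
      · exact (h1 l).1
      · exact (h1 l).2
    · rintro (l | l)
      · show n'.δ (r l) = r2 l - _
        rw [(h2 l).1, (hpar _ l).1, sub_eq_add_neg]
        rfl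
      · show n'.δ (𝒟.om r l) = 𝒟.om r2 l - _
        rw [(h2 l).2, (hpar _ l).2, sub_eq_add_neg]
        rfl
  rw [hne, mem_iff_sgl, ten_add_left, map_add]
  exact Submodule.add_mem _ (hK a ha f (le_Uc hm hf)).1 key

/-- **Second half of (C0b).** -/
theorem Two.second [CharZero L] (hG : 𝒟.Good) (hB : H983.Blk 𝒟 u t t' W I U d p)
    (hOFF : OffRow 𝒟 u t W I U d)
    (hI : ∀ A : Fin 3 → End L V, (∀ a, A a ∈ H983.Ten 𝒟.q I W) →
      H983.fam 𝒟 t A ∈ H983.WF 𝒟 t W I u)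
    (h : Two 𝒟 u t t' W I U d i j x y x' y' T Td ξ ξ' ξd ξd' n n' R R')
    (hZ : ∀ r ∈ Uu V u, (∃ Γ, RelG 𝒟 W I t Γ r) → ∃ (Z : Fin 3 → End L V) (c c' : L),
      (∀ a, Z a - (c • T a - c' • Td a) ∈ H983.Ten 𝒟.q I W) ∧ ∀ a l,
      BB 𝒟 (H983.tm t t' x y) r T Td ξ ξ' ξd ξd' a (H983.tm t t' x y l) = Z a (t l) ∧
      BB 𝒟 (H983.tm t t' x y) r T Td ξ ξ' ξd ξd' a (𝒟.om (H983.tm t t' x y) l) =
        Z a (𝒟.om t l))
    {e f : V} (he : e ∈ U j ⊓ I) {m : Fin k} (hm : d m = d i) (hf : f ∈ U m) (c : Fin 3) :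
    H983.fam 𝒟 t (Pi.single c (H983.tp 𝒟.q f (n.δ e))) ∈ H983.WF 𝒟 t W I u := by
  obtain ⟨a, a', b, ha, ha', hb, hne, hne'⟩ := h.der_e he
  obtain ⟨p0, p0', s, hp, hp', hs, hnf, hnf'⟩ := h.der_f hm hf
  have hK := known1 hOFF h.dij c
  have hsk := h.skew hG.form
  -- the admissible family of `f ⊗ e`
  obtain ⟨r, hr, hΓ, hn⟩ := (hOFF j m (by rw [hm]; exact h.dij.symm) e he f hf c).2
  obtain ⟨r1, hr1, hΓ1, h1⟩ := h.F.fam r hr hΓ
  obtain ⟨r2, hr2, hΓ2, h2⟩ := h.F'.fam r hr hΓ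
  have hpar := h.par r hr hΓ
  obtain ⟨Z, z, z', hZI, hZt⟩ := hZ r hr hΓ
  have hΘ : (fun l => BB 𝒟 (H983.tm t t' x y) r T Td ξ ξ' ξd ξd' (armX 𝒟 l)
      (ext 𝒟 (H983.tm t t' x y) l)) ∈ WF (CX 𝒟) (RX 𝒟 t W I u) := by
    have e1 : (fun l => BB 𝒟 (H983.tm t t' x y) r T Td ξ ξ' ξd ξd' (armX 𝒟 l)
        (ext 𝒟 (H983.tm t t' x y) l)) = fam (armX 𝒟) (ext 𝒟 t) Z := by
      funext l
      rcases l with l | l
      · exact (hZt _ l).1
      · exact (hZt _ l).2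
    have e2 : Z = (fun a => Z a - (z • T a - z' • Td a)) + (z • T - z' • Td) := by
      funext a
      simp only [Pi.add_apply, Pi.sub_apply, Pi.smul_apply]
      abel
    have h3 : Z ∈ WW (armX 𝒟) (CX 𝒟) (RX 𝒟 t W I u) (ext 𝒟 t) := by
      rw [e2]
      exact add_mem (mem_iff.mp (hI _ hZI))
        (sub_mem (Submodule.smul_mem _ _ (mem_iff.mp h.TW))
          (Submodule.smul_mem _ _ (mem_iff.mp h.TdW)))
    rw [e1]
    exact h3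
  have key : sgl c (ten 𝒟.q f b) ∈ WW (armX 𝒟) (CX 𝒟) (RX 𝒟 t W I u) (ext 𝒟 t) := by
    refine core_odd (τ := ext 𝒟 (H983.tm t t' x y)) (τ' := ext 𝒟 (H983.tm t t' x' y'))
      (Ui := Uc U d i) (Uj := U j) (I := I) (ui := x + y * d i) (uj := x + y * d j) h.hi h.hj
      (Y := fun a => T a - Td a) hsk
      (par_of hG hB hsk h.F) ?_ ha ha' ⟨he.2, he.1⟩ (le_Uc rfl hb.1)
      (le_Uc hm hf) hp hp' hne hne' hnf hnf' (h.Ye hB he.2) c
      (fun z hz w hw => (hK z hz w hw).2) (r := ext 𝒟 r) (r1 := ext 𝒟 r1) (r2 := ext 𝒟 r2)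
      (Θ := fun l => BB 𝒟 (H983.tm t t' x y) r T Td ξ ξ' ξd ξd' (armX 𝒟 l)
        (ext 𝒟 (H983.tm t t' x y) l)) ?_ hΘ
      (ext_mem hr1 hΓ1) (ext_mem hr2 hΓ2) ?_ ?_
    · have h3 := par_of (i := i) (j := j) hG hB hsk h.F'
      rw [h.hi', h.hj'] at h3
      exact h3
    · rintro (l | l)
      · exact (hn l).1
      · exact (hn l).2
    · rintro (l | l)
      · exact (h1 l).1
      · exact (h1 l).2
    · rintro (l | l)
      · show n'.δ (r l) = r2 l - _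
        rw [(h2 l).1, (hpar _ l).1, sub_eq_add_neg]
        rfl
      · show n'.δ (𝒟.om r l) = 𝒟.om r2 l - _
        rw [(h2 l).2, (hpar _ l).2, sub_eq_add_neg]
        rfl
  rw [hne, mem_iff_sgl, ten_add_right, map_add]
  exact Submodule.add_mem _ (hK a ha f (le_Uc hm hf)).2 key

end steps

end Vale.Agent.P182.H534
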