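import Vale.Agent.P182.H534.C0d
import Vale.Agent.P182.H398.NFlow
import Vale.Agent.P182.H922.RowS
import Vale.Agent.P182.H746.Twist

/-!
# (C0b): row C0 from OFF and the two-section flow
-/

namespace Vale.Agent.P182.H534

open Module Matrix Vale.Agent.P182.H533 Vale.Agent.P182.B1 Vale.Agent.P182.H922
  Vale.Agent.P182.H578 Vale.Agent.P182.H588 Vale.Agent.P182.H181 Vale.Agent.P182.H58.Glue7
  Vale.Agent.P182.H398

universe u v w

variable {L : Type u} {V : Type v} {J : Type w} [Field L] [AddCommGroup V] [Module L V]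
  [Fintype J] [DecidableEq J] {𝒟 : Cfg L V J} {u : J → L} {t t' : J → V} {W I : Submodule L V}
  {k : ℕ} {U : Fin k → Submodule L V} {d : Fin k → L} {p : Fin 3 → ℕ}

/-- the two-section flows at the base `x t + y t'` exist -/
def FBRow (𝒟 : Cfg L V J) (u : J → L) (t t' : J → V) (W I : Submodule L V)
    (U : Fin k → Submodule L V) (i j : Fin k) (x y : L) : Prop :=
  ∀ T Td ξ ξ' ξd ξd' : Fin 3 → End L V,
    Adm 𝒟.q (Res 𝒟 (H983.tm t t' x y)) I (U i) (U j) T → (∀ a, H983.IsAdj 𝒟.q (T a) (Td a)) →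
    (∀ a v, ξ a v ∈ U i) → (∀ a v, ξ' a v ∈ U j) →
    (∀ w ∈ U i, ∑ b, Res 𝒟 (H983.tm t t' x y) b (ξ b w) = w) →
    (∀ w ∈ U j, ∑ b, Res 𝒟 (H983.tm t t' x y) b (ξ' b w) = w) →
    (∀ a, H983.IsAdj 𝒟.q (ξ a) (ξd a)) → (∀ a, H983.IsAdj 𝒟.q (ξ' a) (ξd' a)) →
    ∃ n R, FB 𝒟 u W I t (H983.tm t t' x y) T Td ξ ξ' ξd ξd' n R ∧ ∀ w ∈ W, n.δ w ∈ W

section base

variable (hG : 𝒟.Good) (hK : KRel 𝒟.arm 𝒟.q 𝒟.Ω (Tt L '' (Ku 𝒟 u : Set (J → V))))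
  (hB : H983.Blk 𝒟 u t t' W I U d p) {i j : Fin k} {x y x' y' : L}

include hG hK hB

/-- an admissible triple at a base is admissible at the base of the other parity -/
theorem adm_par (h1 : x' + y' * d i = -(x + y * d i)) (h2 : x' + y' * d j = x + y * d j)
    {T : Fin 3 → End L V} (hT : Adm 𝒟.q (Res 𝒟 (H983.tm t t' x y)) I (U i) (U j) T) :
    Adm 𝒟.q (Res 𝒟 (H983.tm t t' x' y')) I (U i) (U j) T := by
  have hi : ∀ c, ∀ w ∈ U i, Res 𝒟 (H983.tm t t' x' y') c w = Res 𝒟 (H983.tm t t' x y) c w :=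
    fun c w hw => res_par hG hK hB (by rw [h1, neg_sq]) c hw
  have hj : ∀ c, ∀ w ∈ U j, Res 𝒟 (H983.tm t t' x' y') c w = Res 𝒟 (H983.tm t t' x y) c w :=
    fun c w hw => res_par hG hK hB (by rw [h2]) c hw
  have hSA : ∀ (x y : L) a, IsSA 𝒟.q (Res 𝒟 (H983.tm t t' x y) a) := fun x y a =>
    Sop_SA 𝒟.arm hG.form (Tt L (H983.tm t t' x y)) hG.skew a
  refine ⟨hT.range, hT.ker, ?_, fun a w hw => ?_⟩
  · rw [← hT.sum]
    refine Finset.sum_congr rfl fun a _ => ?_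
    refine LinearMap.ext fun v => ?_
    rw [LinearMap.sub_apply, LinearMap.sub_apply, Module.End.mul_apply, Module.End.mul_apply,
      Module.End.mul_apply, Module.End.mul_apply, hi a _ (hT.range a v)]
    congr 1
    rw [← sub_eq_zero, ← map_sub]
    refine hT.ker a _ fun w hw => ?_
    rw [map_sub, LinearMap.sub_apply, hSA, hSA, hj a w hw, sub_self]
  · rw [hi a _ (hT.range a w), hj a w hw]
    exact hT.comm a w hw

variable [FiniteDimensional L V] [CharZero L]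

/-- **The two flows.** -/
theorem two_of (hij : d i ≠ d j) (h1 : x' + y' * d i = -(x + y * d i))
    (h2 : x' + y' * d j = x + y * d j) (hxy : ∀ m, x + y * d m ≠ 0)
    (hxy' : ∀ m, x' + y' * d m ≠ 0) (hc : Cent 𝒟 (H983.tm t t' x y) W I U d)
    (hc' : Cent 𝒟 (H983.tm t t' x' y') W I U d) (hS : H983.RowS 𝒟 u t t' W I x y)
    (hS' : H983.RowS 𝒟 u t t' W I x' y') (hF : FBRow 𝒟 u t t' W I U i j x y)
    (hF' : FBRow 𝒟 u t t' W I U i j x' y') : TwoRow 𝒟 u t t' W I U d i j := by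
  have hne : i ≠ j := fun e => hij (by rw [e])
  refine ⟨x, y, hxy, fun T hT => ?_⟩
  have hT' := adm_par hG hK hB h1 h2 hT
  -- the adjoints
  have hex : ∀ A : End L V, ∃ A' : End L V, H983.IsAdj 𝒟.q A A' := by
    intro A
    obtain ⟨A', hA'⟩ := hG.form.exists_end (𝒟.q.compl₂ A)
    refine ⟨A', fun v w => ?_⟩
    rw [hG.form.symm, hG.form.symm v, hA']
    rfl
  choose Td hTd using fun a => hex (T a)
  obtain ⟨ξ, hξ1, hξ2⟩ := exists_sec (st_tm_U hG hK hB (hxy i))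
  obtain ⟨ξ', hξ1', hξ2'⟩ := exists_sec (st_tm_U hG hK hB (hxy j))
  choose ξd hξd using fun a => hex (ξ a)
  choose ξd' hξd' using fun a => hex (ξ' a)
  obtain ⟨n, R, hFn, hnW⟩ := hF T Td ξ ξ' ξd ξd' hT hTd hξ1 hξ1' hξ2 hξ2' hξd hξd'
  have hi : ∀ c, ∀ w ∈ U i, Res 𝒟 (H983.tm t t' x' y') c w = Res 𝒟 (H983.tm t t' x y) c w :=
    fun c w hw => res_par hG hK hB (by rw [h1, neg_sq]) c hw
  have hj : ∀ c, ∀ w ∈ U j, Res 𝒟 (H983.tm t t' x' y') c w = Res 𝒟 (H983.tm t t' x y) c w :=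
    fun c w hw => res_par hG hK hB (by rw [h2]) c hw
  obtain ⟨n', R', hFn', hnW'⟩ := hF' T Td ξ ξ' ξd ξd' hT' hTd hξ1 hξ1'
    (fun w hw => (Finset.sum_congr rfl fun b _ => hi b _ (hξ1 b w)).trans (hξ2 w hw))
    (fun w hw => (Finset.sum_congr rfl fun b _ => hj b _ (hξ1' b w)).trans (hξ2' w hw))
    hξd hξd'
  have hTm : ∀ a, T a ∈ H983.Ten 𝒟.q (U i) (U j) := fun a => ⟨hT.range a, hT.ker a⟩
  have hTdm : ∀ a, Td a ∈ H983.Ten 𝒟.q (U j) (U i) := fun a =>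
    ⟨NBlk.Td_mem hG.form hT hTd a, fun v hv => NBlk.Td_ker hG.form hT hTd a hv⟩
  have F : NBlk.TF 𝒟 u W I (U i) (U j) (H983.tm t t' x y) T Td n R :=
    ⟨hT, hTd, ⟨hFn.memR, hFn.tau, hFn.om, hnW⟩⟩
  have F' : NBlk.TF 𝒟 u W I (U i) (U j) (H983.tm t t' x' y') T Td n' R' :=
    ⟨hT', hTd, ⟨hFn'.memR, hFn'.tau, hFn'.om, hnW'⟩⟩
  obtain ⟨hTW, hTdW⟩ := H258.chain_WF hG hB hK hne h1 h2 (hxy i) (hxy j) hS hS' hTm
    (fun a v w => hTd a v w) hT.sum hT.comm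
  have hi2 : (x' + y' * d i) ^ 2 = (x + y * d i) ^ 2 := by rw [h1, neg_sq]
  have hj2 : (x' + y' * d j) ^ 2 = (x + y * d j) ^ 2 := by rw [h2]
  refine ⟨x', y', Td, ξ, ξ', ξd, ξd', n, n', R, R', ⟨hij, hxy i, hxy j, h1, h2, hTm, hTdm, hTd,
    hTW, hTdW, hFn, hFn', ?_, ?_, ?_, ?_, fun r _ _ a l => ?_⟩, ?_, fun r _ hr => ?_⟩
  · exact ⟨NBlk.mapI hB hnW, NBlk.TF.mapUj hG hK hB F hne hxy hc,
      NBlk.TF.mapUi hG hK hB F hne hxy hc,
      fun m hmi hmj => NBlk.TF.mapUk hG hK hB F hxy hc hmi hmj⟩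
  · exact ⟨NBlk.mapI hB hnW', NBlk.TF.mapUj hG hK hB F' hne hxy' hc',
      NBlk.TF.mapUi hG hK hB F' hne hxy' hc',
      fun m hmi hmj => NBlk.TF.mapUk hG hK hB F' hxy' hc' hmi hmj⟩
  · exact NBlk.TF.diff hG hK hB F F' hne hxy hc hxy' hc' hi2 hj2
  · exact NBlk.TF.diff' hG hK hB F F' hne hxy hc hxy' hc' hi2 hj2
  · exact par_of_blk hG hK hB h1 h2 hTm hTdm (fun a w _ => hξ1 a w) (fun a w _ => hξ1' a w)
      hξd hξd' r a l
  · exact (NBlk.TF.toFlow hG hK hB F hne hxy hc (X := ⊤) fun _ _ => trivial).rule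
  · exact near_of_blk hG hK hB (hxy i) (hxy j) hTm hTdm (fun a w _ => hξ1 a w)
      (fun a w _ => hξ1' a w) hξd hξd' hξ2 hξ2' hr

end base

variable [FiniteDimensional L V] [CharZero L]

/-- **Row C0**, from OFF and the two-section flows. -/
theorem rowC0_of_FB (hC : Ctx 𝒟 u) (hM : MaxCoreU 𝒟 u t)
    (hB : H983.Blk 𝒟 u t t' W I U d p) (hOFF : OffRow 𝒟 u t W I U d)
    (hFB : ∀ i j x y, d i ≠ d j → (∀ m, x + y * d m ≠ 0) → S2.Cen 𝒟 t t' W I x y →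
      FBRow 𝒟 u t t' W I U i j x y) : H983.RowC0 𝒟 u t W I := by
  have hG := hC.good
  have hK := hC.krel
  obtain ⟨F, hF, hF0, hl⟩ := S2.exists_lines hB hC
  refine rowC0_of_two hG hK hB hOFF fun i j hij => ?_
  -- two bases of different parity
  obtain ⟨x, hx1, hx2⟩ := (H746.eventually_avoid hij hF hF0).exists
  have g1 : ∀ b ∈ F, b.1 * 1 + b.2 * x ≠ 0 := hx1
  obtain ⟨n1, c1⟩ := hl 1 x g1
  obtain ⟨n2, c2⟩ := hl _ _ hx2
  have hcen1 : S2.Cen 𝒟 t t' W I 1 x := fun M m1 m2 m3 => (c1 M m1 m2 m3).1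
  have hcen2 : S2.Cen 𝒟 t t' W I (H746.mu0 (d i) (d j) x) (H746.mu1 (d i) (d j) x) :=
    fun M m1 m2 m3 => (c2 M m1 m2 m3).1
  refine two_of hG hK hB hij (H746.mu_left hij x) (H746.mu_right hij x) n1 n2
    (fun M m1 m2 m3 i j hij v hv w hw => ?_) (fun M m1 m2 m3 i j hij v hv w hw => ?_)
    (S2.rowS two_ne_zero hB hC hM n1 hcen1) (S2.rowS two_ne_zero hB hC hM n2 hcen2)
    (hFB i j _ _ hij n1 hcen1) (hFB i j _ _ hij n2 hcen2)
  · rw [hG.form.symm]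
    exact (c1 M m1 m2 m3).2 j i hij.symm w hw v hv
  · rw [hG.form.symm]
    exact (c2 M m1 m2 m3).2 j i hij.symm w hw v hv

end Vale.Agent.P182.H534
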