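import Vale.Agent.P182.H534.C0b
import Vale.Agent.P182.H58.Glue7I
import Vale.Agent.P182.H647.Pure

/-!
# (C0b): row C0 from the flows of the admissible triples
-/

namespace Vale.Agent.P182.H534

open Module Matrix Vale.Agent.P182.H533 Vale.Agent.P182.B1 Vale.Agent.P182.H922
  Vale.Agent.P182.H578 Vale.Agent.P182.H588 Vale.Agent.P182.H181 Vale.Agent.P182.H58.Glue7

universe u v w

variable {L : Type u} {V : Type v} {J : Type w} [Field L] [AddCommGroup V] [Module L V]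
  [Fintype J] [DecidableEq J] {𝒟 : Cfg L V J} {u : J → L} {t t' : J → V} {W I : Submodule L V}
  {k : ℕ} {U : Fin k → Submodule L V} {d : Fin k → L} {p : Fin 3 → ℕ}

/-- the flows of the admissible triples at a base of the pair `i`, `j` -/
def TwoRow (𝒟 : Cfg L V J) (u : J → L) (t t' : J → V) (W I : Submodule L V)
    (U : Fin k → Submodule L V) (d : Fin k → L) (i j : Fin k) : Prop :=
  ∃ x y : L, (∀ m, x + y * d m ≠ 0) ∧
    ∀ T, Adm 𝒟.q (Res 𝒟 (H983.tm t t' x y)) I (U i) (U j) T →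
    ∃ (x' y' : L) (Td ξ ξ' ξd ξd' : Fin 3 → End L V) (n n' : H533.Conn 𝒟.q) (R R' : J → V),
      Two 𝒟 u t t' W I U d i j x y x' y' T Td ξ ξ' ξd ξd' n n' R R' ∧
      (∀ a, ∀ v ∈ U j, n.δ (Res 𝒟 (H983.tm t t' x y) a v) -
        Res 𝒟 (H983.tm t t' x y) a (n.δ v) - (T a (Res 𝒟 (H983.tm t t' x y) a v) -
          Res 𝒟 (H983.tm t t' x y) a (T a v)) ∈ U j) ∧
      ∀ r ∈ Uu V u, (∃ Γ, RelG 𝒟 W I t Γ r) → ∃ (Z : Fin 3 → End L V) (c c' : L),
        (∀ a, Z a - (c • T a - c' • Td a) ∈ H983.Ten 𝒟.q I W) ∧ ∀ a l,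
        BB 𝒟 (H983.tm t t' x y) r T Td ξ ξ' ξd ξd' a (H983.tm t t' x y l) = Z a (t l) ∧
        BB 𝒟 (H983.tm t t' x y) r T Td ξ ξ' ξd ξd' a (𝒟.om (H983.tm t t' x y) l) =
          Z a (𝒟.om t l)

/-- the elements `z` with all `z ⊗ f`, `f` in the blocks of the same eigenvalue, admissible -/
def X1 (𝒟 : Cfg L V J) (u : J → L) (t : J → V) (W I : Submodule L V)
    (U : Fin k → Submodule L V) (d : Fin k → L) (i : Fin k) : Submodule L V where
  carrier := {z | ∀ m, d m = d i → ∀ f ∈ U m, ∀ c : Fin 3,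
    H983.fam 𝒟 t (Pi.single c (H983.tp 𝒟.q z f)) ∈ H983.WF 𝒟 t W I u}
  zero_mem' := fun m _ f _ c => by
    rw [mem_iff_sgl]
    have h1 : ten 𝒟.q 0 f = 0 := LinearMap.ext fun v => by simp [ten_apply]
    rw [h1, map_zero]
    exact zero_mem _
  add_mem' := fun {a b} ha hb m hm f hf c => by
    have h1 := ha m hm f hf c
    have h2 := hb m hm f hf c
    rw [mem_iff_sgl] at h1 h2 ⊢
    rw [ten_add_left, map_add]
    exact add_mem h1 h2
  smul_mem' := fun s a ha m hm f hf c => by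
    have h1 := ha m hm f hf c
    rw [mem_iff_sgl] at h1 ⊢
    rw [ten_smul_left, map_smul]
    exact Submodule.smul_mem _ _ h1

/-- the elements `z` with all `f ⊗ z`, `f` in the blocks of the same eigenvalue, admissible -/
def X2 (𝒟 : Cfg L V J) (u : J → L) (t : J → V) (W I : Submodule L V)
    (U : Fin k → Submodule L V) (d : Fin k → L) (i : Fin k) : Submodule L V where
  carrier := {z | ∀ m, d m = d i → ∀ f ∈ U m, ∀ c : Fin 3,
    H983.fam 𝒟 t (Pi.single c (H983.tp 𝒟.q f z)) ∈ H983.WF 𝒟 t W I u}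
  zero_mem' := fun m _ f _ c => by
    rw [mem_iff_sgl]
    have h1 : ten 𝒟.q f 0 = 0 := LinearMap.ext fun v => by simp [ten_apply]
    rw [h1, map_zero]
    exact zero_mem _
  add_mem' := fun {a b} ha hb m hm f hf c => by
    have h1 := ha m hm f hf c
    have h2 := hb m hm f hf c
    rw [mem_iff_sgl] at h1 h2 ⊢
    rw [ten_add_right, map_add]
    exact add_mem h1 h2
  smul_mem' := fun s a ha m hm f hf c => by
    have h1 := ha m hm f hf c
    rw [mem_iff_sgl] at h1 ⊢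
    rw [ten_smul_right, map_smul]
    exact Submodule.smul_mem _ _ h1

variable [FiniteDimensional L V] [CharZero L]

/-- the first half -/
theorem le_X1 (hG : 𝒟.Good) (hK : KRel 𝒟.arm 𝒟.q 𝒟.Ω (Tt L '' (Ku 𝒟 u : Set (J → V))))
    (hB : H983.Blk 𝒟 u t t' W I U d p) (hOFF : OffRow 𝒟 u t W I U d)
    (hTwo : ∀ i j, d i ≠ d j → TwoRow 𝒟 u t t' W I U d i j) (i : Fin k) :
    U i ⊓ I ≤ X1 𝒟 u t W I U d i := by
  obtain ⟨j, hji⟩ := hB.two i
  have hij : i ≠ j := fun e => hji (by rw [e])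
  obtain ⟨x, y, hc, hT⟩ := hTwo i j hji.symm
  refine glue_tm hG hK hB hc hij _ ?_ ?_
  · intro z hz m hm f hf c
    exact H983.WFe_le 𝒟 t W I (hOFF j m (by rw [hm]; exact hji) z hz f hf c).1
  · intro T hA
    obtain ⟨x', y', Td, ξ, ξ', ξd, ξd', n, n', R, R', h2, hrule, -⟩ := hT T hA
    exact ⟨n.δ, ⟨hrule, h2.N.mapUj, fun e he => h2.N.mapI e he.2, fun e he m hm f hf c =>
      h2.first hG hB hOFF he hm hf c⟩⟩

/-- the second half -/
theorem le_X2 (hG : 𝒟.Good) (hK : KRel 𝒟.arm 𝒟.q 𝒟.Ω (Tt L '' (Ku 𝒟 u : Set (J → V))))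
    (hB : H983.Blk 𝒟 u t t' W I U d p) (hOFF : OffRow 𝒟 u t W I U d)
    (hTwo : ∀ i j, d i ≠ d j → TwoRow 𝒟 u t t' W I U d i j)
    (hI : ∀ A : Fin 3 → End L V, (∀ a, A a ∈ H983.Ten 𝒟.q I W) →
      H983.fam 𝒟 t A ∈ H983.WF 𝒟 t W I u) (i : Fin k) :
    U i ⊓ I ≤ X2 𝒟 u t W I U d i := by
  obtain ⟨j, hji⟩ := hB.two i
  have hij : i ≠ j := fun e => hji (by rw [e])
  obtain ⟨x, y, hc, hT⟩ := hTwo i j hji.symm
  refine glue_tm hG hK hB hc hij _ ?_ ?_
  · intro z hz m hm f hf c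
    exact (hOFF j m (by rw [hm]; exact hji) z hz f hf c).2
  · intro T hA
    obtain ⟨x', y', Td, ξ, ξ', ξd, ξd', n, n', R, R', h2, hrule, hZ⟩ := hT T hA
    exact ⟨n.δ, ⟨hrule, h2.N.mapUj, fun e he => h2.N.mapI e he.2, fun e he m hm f hf c =>
      h2.second hG hB hOFF hI hZ he hm hf c⟩⟩

/-- **Row C0**, from the flows. -/
theorem rowC0_of_two (hG : 𝒟.Good)
    (hK : KRel 𝒟.arm 𝒟.q 𝒟.Ω (Tt L '' (Ku 𝒟 u : Set (J → V))))
    (hB : H983.Blk 𝒟 u t t' W I U d p) (hOFF : OffRow 𝒟 u t W I U d)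
    (hTwo : ∀ i j, d i ≠ d j → TwoRow 𝒟 u t t' W I U d i j) : H983.RowC0 𝒟 u t W I := by
  have h1 : ∀ i j a, ∀ e ∈ U i ⊓ I, ∀ f ∈ U j,
      H983.fam 𝒟 t (Pi.single a (H983.tp 𝒟.q e f)) ∈ H983.WF 𝒟 t W I u := by
    intro i j a e he f hf
    by_cases hij : d i = d j
    · exact le_X1 hG hK hB hOFF hTwo i he j hij.symm f hf a
    · exact H983.WFe_le 𝒟 t W I (hOFF i j hij e he f hf a).1
  have hI := H647.ten_I hG.form hB h1
  refine H647.rowC0_of_pure hG.form hB h1 fun i j a e he f hf => ?_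
  by_cases hij : d i = d j
  · exact le_X2 hG hK hB hOFF hTwo hI i he j hij.symm f hf a
  · exact (hOFF i j hij e he f hf a).2

end Vale.Agent.P182.H534
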