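import Vale.Agent.P182.H534.C0c
import Vale.Agent.P182.H735.Par
import Vale.Agent.P182.H258.ChainWF

/-!
# (C0b): the parity of the correction terms
-/

namespace Vale.Agent.P182.H534

open Module Matrix Vale.Agent.P182.H533 Vale.Agent.P182.B1 Vale.Agent.P182.H922
  Vale.Agent.P182.H578 Vale.Agent.P182.H588 Vale.Agent.P182.H181

universe u v w

variable {L : Type u} {V : Type v} {J : Type w} [Field L] [AddCommGroup V] [Module L V]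
  [Fintype J] [DecidableEq J] {𝒟 : Cfg L V J} {u : J → L} {t t' : J → V} {W I : Submodule L V}
  {k : ℕ} {U : Fin k → Submodule L V} {d : Fin k → L} {p : Fin 3 → ℕ}

theorem BB_eq (𝒟 : Cfg L V J) (τ r : J → V) (T Td ξ ξ' ξd ξd' : Fin 3 → End L V) (a : Fin 3) :
    BB 𝒟 τ r T Td ξ ξ' ξd ξd' a =
      H735.BBf (H735.Qr 𝒟 r τ) (Res 𝒟 τ) T Td ξ ξ' ξd ξd' a := rfl

/-- the correction term at a base of the pair `i`, `j` -/
theorem BB_tm (hG : 𝒟.Good) (hB : H983.Blk 𝒟 u t t' W I U d p)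
    {i j : Fin k} {S T Td ξ ξ' ξd ξd' : Fin 3 → End L V}
    (hT : ∀ a, T a ∈ H983.Ten 𝒟.q (U i) (U j)) (hTd : ∀ a, Td a ∈ H983.Ten 𝒟.q (U j) (U i))
    (hξ : ∀ a, ∀ w ∈ U i, ξ a w ∈ U i) (hξ' : ∀ a, ∀ w ∈ U j, ξ' a w ∈ U j)
    (hξd : ∀ a, H983.IsAdj 𝒟.q (ξ a) (ξd a)) (hξd' : ∀ a, H983.IsAdj 𝒟.q (ξ' a) (ξd' a))
    (hSi : ∀ c, ∀ w ∈ U i, S c w ∈ U i) (hSj : ∀ c, ∀ w ∈ U j, S c w ∈ U j) {x y : L}
    (hi : ∀ c, ∀ w ∈ U i, Res 𝒟 (H983.tm t t' x y) c w = S c w)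
    (hj : ∀ c, ∀ w ∈ U j, Res 𝒟 (H983.tm t t' x y) c w = S c w) (r : J → V) (a : Fin 3) (l : J) :
    BB 𝒟 (H983.tm t t' x y) r T Td ξ ξ' ξd ξd' a (H983.tm t t' x y l) =
      (((x + y * d i) * (x + y * d j)) •
        H735.BBf (H735.Qr 𝒟 r t) S T Td ξ ξ' ξd ξd' a) (t l) ∧
    BB 𝒟 (H983.tm t t' x y) r T Td ξ ξ' ξd ξd' a (𝒟.om (H983.tm t t' x y) l) =
      (((x + y * d i) * (x + y * d j)) •
        H735.BBf (H735.Qr 𝒟 r t) S T Td ξ ξ' ξd ξd' a) (𝒟.om t l) := by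
  have e1 : ∀ w ∈ U i, ∀ l, 𝒟.q w (H983.tm t t' x y l) = (x + y * d i) * 𝒟.q w (t l) :=
    fun w hw l => q_tm hB x y i hw hG.form l
  have e2 : ∀ w ∈ U j, ∀ l, 𝒟.q w (H983.tm t t' x y l) = (x + y * d j) * 𝒟.q w (t l) :=
    fun w hw l => q_tm hB x y j hw hG.form l
  rw [BB_eq, LinearMap.smul_apply, LinearMap.smul_apply]
  exact ⟨H735.BBf_base hG.form hT hTd hξ hξ' hξd hξd' (fun c w hw => H735.Qr_base hG e1 c hw)
      (fun c w hw => H735.Qr_base hG e2 c hw) hSi hSj hi hj (fun w hw => e1 w hw l)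
      (fun w hw => e2 w hw l) _,
    H735.BBf_base hG.form hT hTd hξ hξ' hξd hξd' (fun c w hw => H735.Qr_base hG e1 c hw)
      (fun c w hw => H735.Qr_base hG e2 c hw) hSi hSj hi hj
      (fun w hw => H735.q_om_base e1 hw l) (fun w hw => H735.q_om_base e2 hw l) _⟩

section base

variable (hG : 𝒟.Good) (hK : KRel 𝒟.arm 𝒟.q 𝒟.Ω (Tt L '' (Ku 𝒟 u : Set (J → V))))
  (hB : H983.Blk 𝒟 u t t' W I U d p) {i j : Fin k} {x y x' y' : L}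
  {T Td ξ ξ' ξd ξd' : Fin 3 → End L V}

include hG hK hB

/-- the residues at two bases of different parity agree on the blocks -/
theorem res_par {m : Fin k} (h : (x' + y' * d m) ^ 2 = (x + y * d m) ^ 2) (c : Fin 3) {w : V}
    (hw : w ∈ U m) :
    Res 𝒟 (H983.tm t t' x' y') c w = Res 𝒟 (H983.tm t t' x y) c w := by
  rw [H58.Glue7.res_tm hG hK hB x' y' hw, H58.Glue7.res_tm hG hK hB x y hw, h]

/-- **The parity of the correction terms.** -/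
theorem par_of_blk (h1 : x' + y' * d i = -(x + y * d i)) (h2 : x' + y' * d j = x + y * d j)
    (hT : ∀ a, T a ∈ H983.Ten 𝒟.q (U i) (U j)) (hTd : ∀ a, Td a ∈ H983.Ten 𝒟.q (U j) (U i))
    (hξ : ∀ a, ∀ w ∈ U i, ξ a w ∈ U i) (hξ' : ∀ a, ∀ w ∈ U j, ξ' a w ∈ U j)
    (hξd : ∀ a, H983.IsAdj 𝒟.q (ξ a) (ξd a)) (hξd' : ∀ a, H983.IsAdj 𝒟.q (ξ' a) (ξd' a))
    (r : J → V) (a : Fin 3) (l : J) :
    BB 𝒟 (H983.tm t t' x' y') r T Td ξ ξ' ξd ξd' a (H983.tm t t' x' y' l) =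
      -BB 𝒟 (H983.tm t t' x y) r T Td ξ ξ' ξd ξd' a (H983.tm t t' x y l) ∧
    BB 𝒟 (H983.tm t t' x' y') r T Td ξ ξ' ξd ξd' a (𝒟.om (H983.tm t t' x' y') l) =
      -BB 𝒟 (H983.tm t t' x y) r T Td ξ ξ' ξd ξd' a (𝒟.om (H983.tm t t' x y) l) := by
  have hm : ∀ m c, ∀ w ∈ U m, Res 𝒟 (H983.tm t t' x y) c w ∈ U m := fun m c w hw => by
    rw [H58.Glue7.res_tm hG hK hB x y hw]
    exact (U m).smul_mem _ (H58.Glue7.res_mem_U hG hK hB hw c)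
  have b1 := BB_tm hG hB hT hTd hξ hξ' hξd hξd' (hm i) (hm j) (x := x) (y := y)
    (fun c w _ => rfl) (fun c w _ => rfl) r a l
  have b2 := BB_tm hG hB hT hTd hξ hξ' hξd hξd' (hm i) (hm j) (x := x') (y := y')
    (fun c w hw => res_par hG hK hB (by rw [h1, neg_sq]) c hw)
    (fun c w hw => res_par hG hK hB (by rw [h2]) c hw) r a l
  rw [b1.1, b1.2, b2.1, b2.2, h1, h2, neg_mul, neg_smul, LinearMap.neg_apply,
    LinearMap.neg_apply]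
  exact ⟨rfl, rfl⟩

/-- **The leading term of the correction.** -/
theorem near_of_blk (hi : x + y * d i ≠ 0) (hj : x + y * d j ≠ 0)
    (hT : ∀ a, T a ∈ H983.Ten 𝒟.q (U i) (U j)) (hTd : ∀ a, Td a ∈ H983.Ten 𝒟.q (U j) (U i))
    (hξ : ∀ a, ∀ w ∈ U i, ξ a w ∈ U i) (hξ' : ∀ a, ∀ w ∈ U j, ξ' a w ∈ U j)
    (hξd : ∀ a, H983.IsAdj 𝒟.q (ξ a) (ξd a)) (hξd' : ∀ a, H983.IsAdj 𝒟.q (ξ' a) (ξd' a))
    (hsec : ∀ w ∈ U i, ∑ b, Res 𝒟 (H983.tm t t' x y) b (ξ b w) = w)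
    (hsec' : ∀ w ∈ U j, ∑ b, Res 𝒟 (H983.tm t t' x y) b (ξ' b w) = w)
    {r : J → V} (hr : ∃ Γ, RelG 𝒟 W I t Γ r) :
    ∃ (Z : Fin 3 → End L V) (c c' : L),
      (∀ a, Z a - (c • T a - c' • Td a) ∈ H983.Ten 𝒟.q I W) ∧ ∀ a l,
      BB 𝒟 (H983.tm t t' x y) r T Td ξ ξ' ξd ξd' a (H983.tm t t' x y l) = Z a (t l) ∧
      BB 𝒟 (H983.tm t t' x y) r T Td ξ ξ' ξd ξd' a (𝒟.om (H983.tm t t' x y) l) =
        Z a (𝒟.om t l) := by
  obtain ⟨Γ, hΓ⟩ := hr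
  obtain ⟨c, hc⟩ := hB.scal Γ hΓ.mapW hΓ.mapI hΓ.sa hΓ.comm
  have hUW : ∀ m, U m ≤ W := fun m => hB.supU ▸ le_iSup U m
  have hm : ∀ m c, ∀ w ∈ U m, Res 𝒟 (H983.tm t t' x y) c w ∈ U m := fun m c w hw => by
    rw [H58.Glue7.res_tm hG hK hB x y hw]
    exact (U m).smul_mem _ (H58.Glue7.res_mem_U hG hK hB hw c)
  refine ⟨fun a => ((x + y * d i) * (x + y * d j)) •
      H735.BBf (H735.Qr 𝒟 r t) (Res 𝒟 (H983.tm t t' x y)) T Td ξ ξ' ξd ξd' a,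
    c i * (x + y * d j) / (x + y * d i), c j * (x + y * d i) / (x + y * d j), fun a => ?_,
    fun a l => BB_tm hG hB hT hTd hξ hξ' hξd hξd' (hm i) (hm j) (fun c w _ => rfl)
      (fun c w _ => rfl) r a l⟩
  exact H735.par_near hG (hUW i) (hUW j) (fun a w hw => H58.Glue7.res_mem_I hG hK hB hw a) hT hTd
    hξ hξ' hξd hξd' hsec hsec' (hm i) (hm j) hi hj
    (fun c w hw => H58.Glue7.res_tm hG hK hB x y hw c)
    (fun c w hw => H58.Glue7.res_tm hG hK hB x y hw c) hΓ (hc i) (hc j) a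

end base

end Vale.Agent.P182.H534
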