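import Mathlib

/-!
# The centraliser of `(1 + x D)² S` commutes with `D` for all but finitely many `x`
-/

namespace Vale.Agent.P182.H534

open Module Polynomial

section ratio

variable {L E : Type*} [Field L] [AddCommGroup E] [Module L E]

/-- a nonzero map between `T` and `c T` forces `c` to be a quotient of eigenvalues -/
theorem ratio_mem [IsAlgClosed L] [FiniteDimensional L E] {T N : End L E} (hT : IsUnit T)
    {c : L} (hc : c ≠ 0) (h : N * T = c • (T * N)) (hN : N ≠ 0) :
    ∃ α β : L, T.HasEigenvalue α ∧ T.HasEigenvalue β ∧ c = α / β := by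
  obtain ⟨α, v, hv, hNv⟩ : ∃ α : L, ∃ v ∈ T.maxGenEigenspace α, N v ≠ 0 := by
    by_contra hcon
    push Not at hcon
    apply hN
    have h1 : (⨆ α : L, T.maxGenEigenspace α) ≤ LinearMap.ker N :=
      iSup_le fun α v hv => LinearMap.mem_ker.mpr (hcon α v hv)
    rw [Module.End.iSup_maxGenEigenspace_eq_top T, top_le_iff, LinearMap.ker_eq_top] at h1
    exact h1
  have hv0 : v ≠ 0 := by
    rintro rfl
    exact hNv (map_zero N)
  rw [Module.End.mem_maxGenEigenspace] at hv
  obtain ⟨k, hk⟩ := hv
  -- `α` is an eigenvalue of `T`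
  have key : ∀ (A : End L E) (w : E), w ≠ 0 → ∀ m : ℕ, (A ^ m) w = 0 → ∃ z : E, z ≠ 0 ∧ A z = 0 := by
    intro A w hw m
    induction m with
    | zero => intro h; exact absurd (by simpa using h) hw
    | succ m ih =>
      intro h
      by_cases h1 : (A ^ m) w = 0
      · exact ih h1
      · exact ⟨_, h1, by rw [pow_succ', Module.End.mul_apply] at h; exact h⟩
  obtain ⟨z, hz, hz'⟩ := key _ v hv0 k hk
  have hα : T.HasEigenvalue α := by
    rw [Module.End.hasEigenvalue_iff]
    intro h0
    apply hz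
    have h2 : z ∈ T.eigenspace α := by
      rw [Module.End.mem_eigenspace_iff]
      rw [LinearMap.sub_apply, sub_eq_zero] at hz'
      rw [hz']
      rfl
    rw [h0, Submodule.mem_bot] at h2
    exact h2
  -- `α` is an eigenvalue of `c T`
  have hcomm : N * (T - α • 1) = (c • T - α • 1) * N := by
    rw [mul_sub, sub_mul, h, smul_mul_assoc, mul_smul_comm, smul_mul_assoc, mul_one, one_mul]
  have hpow : ∀ m : ℕ, N * (T - α • 1) ^ m = (c • T - α • 1) ^ m * N := by
    intro m
    induction m with
    | zero => rw [pow_zero, pow_zero, mul_one, one_mul]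
    | succ m ih => rw [pow_succ, ← mul_assoc, ih, mul_assoc, hcomm, ← mul_assoc, ← pow_succ]
  have hk2 : ((c • T - α • 1) ^ k) (N v) = 0 := by
    rw [← Module.End.mul_apply, ← hpow k, Module.End.mul_apply]
    have h3 : ((T - α • 1) ^ k) v = 0 := hk
    rw [h3, map_zero]
  obtain ⟨y, hy, hy'⟩ := key _ (N v) hNv k hk2
  have hTy : T y = (α / c) • y := by
    rw [LinearMap.sub_apply, sub_eq_zero, LinearMap.smul_apply, LinearMap.smul_apply,
      Module.End.one_apply] at hy'
    have h4 : c⁻¹ • (c • T y) = c⁻¹ • (α • y) := by rw [hy']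
    rw [smul_smul, smul_smul, inv_mul_cancel₀ hc, one_smul] at h4
    rw [h4, div_eq_inv_mul]
  have hβ : T.HasEigenvalue (α / c) := by
    rw [Module.End.hasEigenvalue_iff]
    intro h0
    apply hy
    have h2 : y ∈ T.eigenspace (α / c) := by
      rw [Module.End.mem_eigenspace_iff]
      exact hTy
    rw [h0, Submodule.mem_bot] at h2
    exact h2
  have hα0 : α ≠ 0 := by
    rintro rfl
    apply hz
    rw [zero_smul, sub_zero] at hz'
    obtain ⟨u, hu⟩ := hT
    have h5 : (↑u⁻¹ * T : End L E) z = 0 := by rw [Module.End.mul_apply, hz', map_zero]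
    rwa [← hu, Units.inv_mul, Module.End.one_apply] at h5
  exact ⟨α, α / c, hα, hβ, by field_simp⟩

end ratio

section main

variable {L E : Type*} [Field L] [AddCommGroup E] [Module L E]

/-- two different linear forms: the equation `(1 + x a)² = γ (1 + x b)²` has finitely many
solutions -/
theorem finite_sq (h2 : (2 : L) ≠ 0) {a b : L} (hab : a ≠ b) (γ : L) :
    {x : L | (1 + x * a) ^ 2 = γ * (1 + x * b) ^ 2}.Finite := by
  set p : L[X] := (1 + X * C a) ^ 2 - C γ * (1 + X * C b) ^ 2 with hp
  have hev : ∀ x, p.eval x = (1 + x * a) ^ 2 - γ * (1 + x * b) ^ 2 := by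
    intro x
    rw [hp]
    simp only [eval_sub, eval_pow, eval_add, eval_one, eval_mul, eval_X, eval_C]
  have hp0 : p ≠ 0 := by
    intro h0
    have e0 := hev 0
    have e1 := hev 1
    have e2 := hev (-1)
    rw [h0, eval_zero] at e0 e1 e2
    have g : γ = 1 := by linear_combination e0
    subst g
    apply hab
    have h4 : (2 : L) * 2 * (a - b) = 0 := by linear_combination e2 - e1
    rcases mul_eq_zero.mp h4 with h | h
    · exact absurd (mul_eq_zero.mp h) (by simp [h2])
    · exact sub_eq_zero.mp h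
  refine (p.finite_setOfPred_isRoot hp0).subset fun x hx => ?_
  show p.IsRoot x
  rw [IsRoot.def, hev, hx.out, sub_self]

theorem finite_lin (a : L) : {x : L | 1 + x * a = 0}.Finite := by
  refine Set.Subsingleton.finite fun x hx y hy => ?_
  have hx' : 1 + x * a = 0 := hx
  have hy' : 1 + y * a = 0 := hy
  have ha : a ≠ 0 := by rintro rfl; simp at hx'
  have : (x - y) * a = 0 := by linear_combination hx' - hy'
  exact sub_eq_zero.mp ((mul_eq_zero.mp this).resolve_right ha)

/-- **The centraliser of `(1 + x D)² S` commutes with `D`, for almost all `x`.** -/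
theorem finite_not_central [IsAlgClosed L] [FiniteDimensional L E] (h2 : (2 : L) ≠ 0)
    {ι : Type*} [Fintype ι] (S : ι → End L E) (a : ι → L) (hT : IsUnit (∑ s, a s • S s))
    {m : Type*} [Fintype m] [DecidableEq m] (P : m → End L E) (d : m → L)
    (hPP : ∀ i, P i * P i = P i) (hP0 : ∀ i j, i ≠ j → P i * P j = 0) (hP1 : ∑ i, P i = 1)
    (hPS : ∀ i s, P i * S s = S s * P i) (hd : Function.Injective d) {D : End L E}
    (hD : D = ∑ i, d i • P i) :
    {x : L | ¬ ∀ M : End L E, (∀ s, M * ((1 + x • D) ^ 2 * S s) = (1 + x • D) ^ 2 * S s * M) →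
      M * D = D * M}.Finite := by
  set T : End L E := ∑ s, a s • S s with hTd
  have hfin : {μ : L | T.HasEigenvalue μ}.Finite := Module.End.finite_hasEigenvalue T
  set F : Set L := (fun p : L × L => p.1 / p.2) '' ({μ : L | T.HasEigenvalue μ} ×ˢ
    {μ : L | T.HasEigenvalue μ}) with hF
  have hFfin : F.Finite := (hfin.prod hfin).image _
  -- the bad parameters
  have hbad : (⋃ i : m, {x : L | 1 + x * d i = 0} ∪
      ⋃ j : m, ⋃ γ ∈ F, if i = j then ∅ else
        {x : L | (1 + x * d i) ^ 2 = γ * (1 + x * d j) ^ 2}).Finite := by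
    refine Set.finite_iUnion fun i => (finite_lin (d i)).union (Set.finite_iUnion fun j => ?_)
    refine hFfin.biUnion fun γ _ => ?_
    split_ifs with h
    · exact Set.finite_empty
    · exact finite_sq h2 (fun hij => h (hd hij)) γ
  refine hbad.subset fun x hx => ?_
  by_contra hxb
  apply hx
  intro M hM
  have hu : ∀ i, 1 + x * d i ≠ 0 := fun i h0 => hxb (Set.mem_iUnion.mpr ⟨i, Or.inl h0⟩)
  have hsq : ∀ i j, i ≠ j → ∀ γ ∈ F, (1 + x * d i) ^ 2 ≠ γ * (1 + x * d j) ^ 2 := by
    intro i j hij γ hγ h0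
    refine hxb (Set.mem_iUnion.mpr ⟨i, Or.inr (Set.mem_iUnion.mpr ⟨j, ?_⟩)⟩)
    refine Set.mem_iUnion₂.mpr ⟨γ, hγ, ?_⟩
    rw [if_neg hij]
    exact h0
  -- `P i (1 + x D) = u i P i`
  have hPD : ∀ i, P i * D = d i • P i := by
    intro i
    rw [hD, Finset.mul_sum, Finset.sum_eq_single i]
    · rw [mul_smul_comm, hPP]
    · intro j _ hj
      rw [mul_smul_comm, hP0 i j (Ne.symm hj), smul_zero]
    · intro h
      exact absurd (Finset.mem_univ i) h
  have hDP : ∀ i, D * P i = d i • P i := by
    intro i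
    rw [hD, Finset.sum_mul, Finset.sum_eq_single i]
    · rw [smul_mul_assoc, hPP]
    · intro j _ hj
      rw [smul_mul_assoc, hP0 j i hj, smul_zero]
    · intro h
      exact absurd (Finset.mem_univ i) h
  have hPu : ∀ i, P i * (1 + x • D) = (1 + x * d i) • P i := by
    intro i
    rw [mul_add, mul_one, mul_smul_comm, hPD, smul_smul, add_smul, one_smul]
  have huP : ∀ i, (1 + x • D) * P i = (1 + x * d i) • P i := by
    intro i
    rw [add_mul, one_mul, smul_mul_assoc, hDP, smul_smul, add_smul, one_smul]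
  have hPu2 : ∀ i, P i * (1 + x • D) ^ 2 = (1 + x * d i) ^ 2 • P i := by
    intro i
    rw [pow_two, ← mul_assoc, hPu, smul_mul_assoc, hPu, smul_smul, ← pow_two]
  have huP2 : ∀ i, (1 + x • D) ^ 2 * P i = (1 + x * d i) ^ 2 • P i := by
    intro i
    rw [pow_two, mul_assoc, huP, mul_smul_comm, huP, smul_smul, ← pow_two]
  have hPT : ∀ i, P i * T = T * P i := by
    intro i
    rw [hTd, Finset.mul_sum, Finset.sum_mul]
    refine Finset.sum_congr rfl fun s _ => ?_
    rw [mul_smul_comm, smul_mul_assoc, hPS]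
  have hMT : M * ((1 + x • D) ^ 2 * T) = (1 + x • D) ^ 2 * T * M := by
    rw [hTd]
    simp only [Finset.mul_sum, Finset.sum_mul, mul_smul_comm, smul_mul_assoc]
    exact Finset.sum_congr rfl fun s _ => by rw [hM s]
  -- the off-diagonal blocks vanish
  have hoff : ∀ i j, i ≠ j → P i * M * P j = 0 := by
    intro i j hij
    by_contra hN
    have h3 : P i * M * P j * T * (1 + x * d j) ^ 2 • (1 : End L E) =
        (1 + x * d i) ^ 2 • (T * (P i * M * P j)) := by
      have e1 : P i * (M * ((1 + x • D) ^ 2 * T)) * P j =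
          (1 + x * d j) ^ 2 • (P i * M * P j * T) := by
        calc P i * (M * ((1 + x • D) ^ 2 * T)) * P j
            = P i * M * ((1 + x • D) ^ 2 * (T * P j)) := by simp only [mul_assoc]
          _ = P i * M * ((1 + x • D) ^ 2 * P j * T) := by
            rw [← hPT]
            simp only [mul_assoc]
          _ = (1 + x * d j) ^ 2 • (P i * M * P j * T) := by
            rw [huP2]
            simp only [smul_mul_assoc, mul_smul_comm, mul_assoc]
      have e2 : P i * ((1 + x • D) ^ 2 * T * M) * P j =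
          (1 + x * d i) ^ 2 • (T * (P i * M * P j)) := by
        calc P i * ((1 + x • D) ^ 2 * T * M) * P j
            = P i * (1 + x • D) ^ 2 * (T * (M * P j)) := by simp only [mul_assoc]
          _ = (1 + x * d i) ^ 2 • (P i * T * (M * P j)) := by
            rw [hPu2]
            simp only [smul_mul_assoc, mul_assoc]
          _ = (1 + x * d i) ^ 2 • (T * (P i * M * P j)) := by
            rw [hPT]
            simp only [mul_assoc]
      rw [mul_smul_comm, mul_one, ← e1, hMT, e2]
    rw [mul_smul_comm, mul_one] at h3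
    have hj0 : (1 + x * d j) ^ 2 ≠ 0 := pow_ne_zero 2 (hu j)
    have hi0 : (1 + x * d i) ^ 2 ≠ 0 := pow_ne_zero 2 (hu i)
    have h4 : P i * M * P j * T =
        ((1 + x * d i) ^ 2 / (1 + x * d j) ^ 2) • (T * (P i * M * P j)) := by
      have h5 : ((1 + x * d j) ^ 2)⁻¹ • ((1 + x * d j) ^ 2 • (P i * M * P j * T)) =
          ((1 + x * d j) ^ 2)⁻¹ • ((1 + x * d i) ^ 2 • (T * (P i * M * P j))) := by rw [h3]
      rw [smul_smul, smul_smul, inv_mul_cancel₀ hj0, one_smul] at h5
      rw [h5, div_eq_inv_mul]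
    obtain ⟨α, β, hα, hβ, hc⟩ := ratio_mem hT (div_ne_zero hi0 hj0) h4 hN
    refine hsq i j hij (α / β) ⟨(α, β), ⟨hα, hβ⟩, rfl⟩ ?_
    rw [← hc, div_mul_cancel₀ _ hj0]
  have hMd : M = ∑ i, P i * M * P i := by
    calc M = (∑ i, P i) * M * (∑ j, P j) := by rw [hP1, one_mul, mul_one]
      _ = ∑ i, ∑ j, P i * M * P j := by
        rw [Finset.sum_mul, Finset.sum_mul]
        refine Finset.sum_congr rfl fun i _ => ?_
        rw [Finset.mul_sum]
      _ = ∑ i, P i * M * P i := by
        refine Finset.sum_congr rfl fun i _ => ?_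
        rw [Finset.sum_eq_single i]
        · intro j _ hj
          exact hoff i j (Ne.symm hj)
        · intro h
          exact absurd (Finset.mem_univ i) h
  rw [hMd, Finset.sum_mul, Finset.mul_sum]
  refine Finset.sum_congr rfl fun i _ => ?_
  rw [mul_assoc, hPD, mul_smul_comm, ← mul_assoc, ← mul_assoc, hDP, smul_mul_assoc,
    smul_mul_assoc]

/-- **Parity pairs.** Infinitely many `x` have a partner `x'` with `u_i'/u_j' = - u_i/u_j`, and
both avoid a given finite set. -/
theorem infinite_pairs [CharZero L] {a b : L} (hab : a ≠ b) {B : Set L} (hB : B.Finite) :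
    {x : L | x ∉ B ∧ ∃ x' : L, x' ∉ B ∧
      (1 + x' * a) * (1 + x * b) = -((1 + x * a) * (1 + x' * b))}.Infinite := by
  have h2 : (2 : L) ≠ 0 := two_ne_zero
  -- the denominator
  have hden : {x : L | a + b + 2 * x * (a * b) = 0}.Finite := by
    refine Set.Subsingleton.finite fun x hx y hy => ?_
    have hx' : a + b + 2 * x * (a * b) = 0 := hx
    have hy' : a + b + 2 * y * (a * b) = 0 := hy
    by_cases h0 : a * b = 0
    · rw [h0, mul_zero, add_zero] at hx'
      exfalso
      apply hab
      rcases mul_eq_zero.mp h0 with h | h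
      · rw [h, zero_add] at hx'
        rw [h, hx']
      · rw [h, add_zero] at hx'
        rw [h, hx']
    · have h3 : 2 * (a * b) * (x - y) = 0 := by linear_combination hx' - hy'
      exact sub_eq_zero.mp ((mul_eq_zero.mp h3).resolve_left (mul_ne_zero h2 h0))
  -- the preimage of `B`
  have hpre : ∀ c : L, {x : L | a + b + 2 * x * (a * b) ≠ 0 ∧
      -(2 + x * (a + b)) = c * (a + b + 2 * x * (a * b))}.Finite := by
    intro c
    refine Set.Subsingleton.finite fun x hx y hy => ?_
    obtain ⟨hx0, hx'⟩ := hx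
    obtain ⟨hy0, hy'⟩ := hy
    have h3 : (x - y) * ((a + b) + 2 * c * (a * b)) = 0 := by linear_combination -hx' + hy'
    rcases mul_eq_zero.mp h3 with h | h
    · exact sub_eq_zero.mp h
    · exfalso
      -- then `(a - b)² = 0`
      have h4 : (a - b) ^ 2 = 0 := by
        linear_combination (a + b) * h + (2 * (a * b)) * hx' + (2 * (a * b)) * x * h
      exact hab (sub_eq_zero.mp (pow_eq_zero_iff two_ne_zero |>.mp h4))
  have hall : (B ∪ {x : L | a + b + 2 * x * (a * b) = 0} ∪ ⋃ c ∈ B,
      {x : L | a + b + 2 * x * (a * b) ≠ 0 ∧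
      -(2 + x * (a + b)) = c * (a + b + 2 * x * (a * b))}).Finite :=
    (hB.union hden).union (hB.biUnion fun c _ => hpre c)
  refine (hall.infinite_compl).mono fun x hx => ?_
  simp only [Set.mem_compl_iff, Set.mem_union, Set.mem_iUnion, not_or, not_exists] at hx
  obtain ⟨⟨hxB, hx0⟩, hxc⟩ := hx
  have hx0' : a + b + 2 * x * (a * b) ≠ 0 := hx0
  obtain ⟨x', hx'⟩ : ∃ x' : L, x' * (a + b + 2 * x * (a * b)) = -(2 + x * (a + b)) :=
    ⟨-(2 + x * (a + b)) / (a + b + 2 * x * (a * b)), div_mul_cancel₀ _ hx0'⟩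
  refine ⟨hxB, x', fun hc => hxc _ hc ⟨hx0', hx'.symm⟩, ?_⟩
  linear_combination hx'

end main

end Vale.Agent.P182.H534
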